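import Mathlib

/-!
The stratified family of integer vectors and the separated scales built from it.
-/

namespace Vale.Agent.P072

open Finset

noncomputable section

variable {d : ℕ} (V : Finset (Fin d → ℤ))

/-- The vectors to control, with coordinate vectors and their differences. -/
def base : Finset (Fin d → ℤ) :=
  V ∪ (univ.image fun i => Pi.single i 1) ∪
    ((univ ×ˢ univ).image fun p => Pi.single p.1 1 - Pi.single p.2 1)

/-- Closure of `base` under `r` rounds of elimination of one coordinate. -/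
def Dr : ℕ → Finset (Fin d → ℤ)
  | 0 => base V
  | r + 1 => Dr r ∪ univ.biUnion fun i =>
      Finset.image₂ (fun v v' => v i • v' - v' i • v) (Dr r) (Dr r)

/-- A bound for all coefficients. -/
def bd : ℕ := (Dr V d).sup (fun v => ∑ i, (v i).natAbs) + 1

/-- Ratios of scales. -/
def Rt : ℕ → ℝ
  | 0 => 5 * bd V
  | r + 1 => (10 * (bd V : ℝ) ^ 3 * Rt r) ^ 2

/-- Top of the grid. -/
def topH : ℕ := ⌈2 * Rt V d⌉₊

/-- Initial scales of the barrier families. -/
def e0 : ℕ → ℝ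
  | 0 => topH V + 2
  | m + 1 => Rt V d * e0 m + 2

/-- Bottom of the grid. -/
def botB : ℕ := ⌈Rt V d * e0 V d⌉₊ + 2

lemma one_le_bd : (1 : ℝ) ≤ bd V := by simp [bd]

lemma five_le_Rt : ∀ r, 5 ≤ Rt V r
  | 0 => by have := one_le_bd V; simp only [Rt]; linarith
  | r + 1 => by
    have h := five_le_Rt r
    have hK : (1 : ℝ) ≤ (bd V : ℝ) ^ 3 := one_le_pow₀ (one_le_bd V)
    have h2 : (50 : ℝ) ≤ 10 * (bd V : ℝ) ^ 3 * Rt V r := by nlinarith
    simp only [Rt]
    nlinarith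

lemma Rt_mono : Monotone (Rt V) := by
  refine monotone_nat_of_le_succ fun r => ?_
  have h := five_le_Rt V r
  have hK : (1 : ℝ) ≤ (bd V : ℝ) ^ 3 := one_le_pow₀ (one_le_bd V)
  have h2 : Rt V r ≤ 10 * (bd V : ℝ) ^ 3 * Rt V r := by nlinarith
  simp only [Rt]
  nlinarith

lemma e0_ge : ∀ m, (topH V : ℝ) + 2 ≤ e0 V m
  | 0 => le_rfl
  | m + 1 => by
    have h := e0_ge m
    have := five_le_Rt V d
    simp only [e0]
    nlinarith [(topH V).cast_nonneg (α := ℝ)]

lemma two_le_e0 (m : ℕ) : 2 ≤ e0 V m := by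
  linarith [e0_ge V m, (topH V).cast_nonneg (α := ℝ)]

lemma e0_mono : Monotone (e0 V) := by
  refine monotone_nat_of_le_succ fun m => ?_
  have := five_le_Rt V d
  have := two_le_e0 V m
  simp only [e0]
  nlinarith

lemma scale_le_botB {m : ℕ} (h : m ≤ d) : Rt V d * e0 V m + 2 ≤ botB V := by
  have h1 : Rt V d * e0 V m ≤ Rt V d * e0 V d :=
    mul_le_mul_of_nonneg_left (e0_mono V h) (by linarith [five_le_Rt V d])
  have := Nat.le_ceil (Rt V d * e0 V d)
  simp only [botB]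
  push_cast
  linarith

lemma Dr_mono : Monotone (Dr V) :=
  monotone_nat_of_le_succ fun _ => Finset.subset_union_left

lemma mem_Dr_of_base {v : Fin d → ℤ} (h : v ∈ base V) (r : ℕ) : v ∈ Dr V r :=
  Dr_mono V (Nat.zero_le r) h

lemma single_mem (i : Fin d) : Pi.single i 1 ∈ base V := by simp [base]

lemma diff_mem (i k : Fin d) : Pi.single i 1 - Pi.single k 1 ∈ base V := by
  simp only [base, mem_union, mem_image]
  exact Or.inr ⟨(i, k), by simp, rfl⟩

lemma comb_mem {r : ℕ} {v v' : Fin d → ℤ} (i : Fin d) (hv : v ∈ Dr V r) (hv' : v' ∈ Dr V r) :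
    v i • v' - v' i • v ∈ Dr V (r + 1) := by
  refine mem_union_right _ (mem_biUnion.mpr ⟨i, mem_univ _, ?_⟩)
  exact mem_image₂.mpr ⟨v, hv, v', hv', rfl⟩

lemma abs_sum_le_bd {r : ℕ} (hr : r ≤ d) {v : Fin d → ℤ} (hv : v ∈ Dr V r) :
    ∑ i, |(v i : ℝ)| ≤ bd V := by
  have h : ∑ i, (v i).natAbs ≤ bd V :=
    (Finset.le_sup (f := fun v : Fin d → ℤ => ∑ i, (v i).natAbs) (Dr_mono V hr hv)).trans
      (Nat.le_succ _)
  calc ∑ i, |(v i : ℝ)| = ((∑ i, (v i).natAbs : ℕ) : ℝ) := by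
        push_cast
        exact Finset.sum_congr rfl fun i _ => by rw [Nat.cast_natAbs, Int.cast_abs]
    _ ≤ bd V := by exact_mod_cast h

lemma abs_le_bd {r : ℕ} (hr : r ≤ d) {v : Fin d → ℤ} (hv : v ∈ Dr V r) (i : Fin d) :
    |(v i : ℝ)| ≤ bd V :=
  (Finset.single_le_sum (f := fun i => |(v i : ℝ)|) (fun i _ => abs_nonneg _) (mem_univ i)).trans
    (abs_sum_le_bd V hr hv)

lemma one_le_abs_cast {z : ℤ} (h : z ≠ 0) : (1 : ℝ) ≤ |(z : ℝ)| := by
  rw [← Int.cast_abs]
  exact_mod_cast Int.one_le_abs h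

/-- The pairing of an integer vector with a real vector. -/
def dot (v : Fin d → ℤ) (n : Fin d → ℝ) : ℝ := ∑ i, (v i : ℝ) * n i

/-- The value of the `j`th coordinate at which `v` vanishes. -/
def lev (v : Fin d → ℤ) (j : Fin d) (n : Fin d → ℝ) : ℝ :=
  -(∑ i ∈ Finset.Iio j, (v i : ℝ) * n i) / v j

/-- All levels at position `j`. -/
def Lev (j : Fin d) (n : Fin d → ℝ) : Finset ℝ :=
  ((Dr V (d - j - 1)).filter fun v => v j ≠ 0 ∧ ∀ i, j < i → v i = 0).image fun v => lev v j n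

lemma Lev_congr {j : Fin d} {n n' : Fin d → ℝ} (h : ∀ i, i < j → n i = n' i) :
    Lev V j n = Lev V j n' := by
  refine Finset.image_congr fun v _ => ?_
  simp only [lev]
  rw [Finset.sum_congr rfl fun i hi => by rw [h i (Finset.mem_Iio.mp hi)]]

lemma dot_eq_lev {v : Fin d → ℤ} {j : Fin d} (h0 : v j ≠ 0) (h : ∀ i, j < i → v i = 0)
    (n : Fin d → ℝ) : dot v n = (v j : ℝ) * (n j - lev v j n) := by
  have hs : dot v n = ∑ i ∈ Finset.Iic j, (v i : ℝ) * n i := by
    refine (Finset.sum_subset (Finset.subset_univ _) fun i _ hi => ?_).symm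
    rw [h i (by simpa using hi)]
    simp
  have hj : (v j : ℝ) ≠ 0 := by exact_mod_cast h0
  rw [hs, ← Finset.Iio_insert, Finset.sum_insert (by simp), lev]
  field_simp
  ring

lemma lev_mem {v : Fin d → ℤ} {j : Fin d} (hv : v ∈ Dr V (d - j - 1)) (h0 : v j ≠ 0)
    (h : ∀ i, j < i → v i = 0) (n : Fin d → ℝ) : lev v j n ∈ Lev V j n :=
  mem_image.mpr ⟨v, mem_filter.mpr ⟨hv, h0, h⟩, rfl⟩

lemma zero_mem_Lev (j : Fin d) (n : Fin d → ℝ) : (0 : ℝ) ∈ Lev V j n := by
  have h := lev_mem V (j := j) (mem_Dr_of_base V (single_mem V j) _) (by simp)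
    (fun i hi => by simp [hi.ne']) n
  have h0 : lev (Pi.single j 1) j n = 0 := by
    rw [lev, Finset.sum_eq_zero fun i hi => by simp [(Finset.mem_Iio.mp hi).ne]]
    simp
  rwa [h0] at h

lemma prev_mem_Lev {i j : Fin d} (hij : i < j) (n : Fin d → ℝ) : n i ∈ Lev V j n := by
  have h := lev_mem V (j := j) (mem_Dr_of_base V (diff_mem V j i) _) (by simp [hij.ne'])
    (fun k hk => by simp [hk.ne', (hij.trans hk).ne']) n
  have h0 : lev (Pi.single j 1 - Pi.single i 1) j n = n i := by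
    rw [lev, Finset.sum_eq_single i]
    · simp [hij.ne, hij.ne']
    · intro k hk hki
      simp [(Finset.mem_Iio.mp hk).ne, hki]
    · simp [hij]
  rwa [h0] at h

end

end Vale.Agent.P072
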