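import Mathlib
import Vale.Agent.P072.Vectors

/-!
Admissible paths of exponents: separation, extension and the choice lemma.
`none` is the top family, `some m` the barrier family starting at position `m`.
-/

namespace Vale.Agent.P072

open Finset

noncomputable section

variable {d : ℕ} (V : Finset (Fin d → ℤ)) (o : Option (Fin d))

/-- First position of the family. -/
def low : Option (Fin d) → ℕ
  | none => 0
  | some m => m

/-- Initial scale of the family. -/
def start : Option (Fin d) → ℝ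
  | none => 2
  | some m => e0 V m

/-- The bit at a natural position. -/
def bitAt (b : Fin d → Bool) (j : ℕ) : Bool := if h : j < d then b ⟨j, h⟩ else false

/-- Error and gap scales at each position. -/
def st (b : Fin d → Bool) : ℕ → ℝ × ℝ
  | 0 => (start V o, Rt V d * start V o)
  | j + 1 =>
    if j < low o then (start V o, Rt V d * start V o)
    else if bitAt b j = true then (2 * Real.sqrt ((st b j).1 * (st b j).2), (st b j).2 / (bd V : ℝ) ^ 2)
    else ((st b j).1, Real.sqrt ((st b j).1 * (st b j).2))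

/-- Error scale. -/
def err (b : Fin d → Bool) (j : ℕ) : ℝ := (st V o b j).1

/-- Gap scale. -/
def gapS (b : Fin d → Bool) (j : ℕ) : ℝ := (st V o b j).2

/-- Window. -/
def win (b : Fin d → Bool) (j : ℕ) : ℝ := Real.sqrt (err V o b j * gapS V o b j)

lemma two_le_start : 2 ≤ start V o := by
  cases o with
  | none => exact le_rfl
  | some m => exact two_le_e0 V m

lemma st_low (b : Fin d → Bool) {j : ℕ} (h : j ≤ low o) :
    st V o b j = (start V o, Rt V d * start V o) := by
  cases j with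
  | zero => rfl
  | succ j => rw [st, if_pos (Nat.lt_of_succ_le h)]

lemma err_snap {b : Fin d → Bool} {j : Fin d} (hj : low o ≤ j) (hb : b j = true) :
    err V o b (j + 1) = 2 * win V o b j ∧ gapS V o b (j + 1) = gapS V o b j / (bd V : ℝ) ^ 2 := by
  simp [err, gapS, win, st, not_lt.mpr hj, bitAt, j.2, hb]

lemma err_free {b : Fin d → Bool} {j : Fin d} (hj : low o ≤ j) (hb : b j = false) :
    err V o b (j + 1) = err V o b j ∧ gapS V o b (j + 1) = win V o b j := by
  simp [err, gapS, win, st, not_lt.mpr hj, bitAt, j.2, hb]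

lemma st_congr {b b' : Fin d → Bool} : ∀ {j : ℕ}, (∀ i : Fin d, (i : ℕ) < j → b i = b' i) →
    st V o b j = st V o b' j
  | 0, _ => rfl
  | j + 1, h => by
    have ih := st_congr (j := j) fun i hi => h i (hi.trans (Nat.lt_succ_self j))
    have hb : bitAt b j = bitAt b' j := by
      simp only [bitAt]
      split
      · exact h _ (Nat.lt_succ_self j)
      · rfl
    simp only [st, ih, hb]

lemma win_aux {E G a : ℝ} (hE : 0 < E) (ha : 0 ≤ a) (h : a ^ 2 * E ≤ G) :
    a * E ≤ Real.sqrt (E * G) ∧ a * Real.sqrt (E * G) ≤ G := by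
  have hG : 0 ≤ G := le_trans (by positivity) h
  have h1 : a * E ≤ Real.sqrt (E * G) := Real.le_sqrt_of_sq_le (by nlinarith)
  refine ⟨h1, le_of_mul_le_mul_left ?_ hE⟩
  nlinarith [Real.mul_self_sqrt (mul_nonneg hE.le hG), Real.sqrt_nonneg (E * G)]

lemma inv_scales (b : Fin d → Bool) : ∀ j : ℕ, j ≤ d →
    2 ≤ err V o b j ∧ Rt V (d - j) * err V o b j ≤ gapS V o b j := by
  intro j
  induction j with
  | zero => exact fun _ => ⟨two_le_start V o, by simp [err, gapS, st]⟩
  | succ j ih =>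
    intro hj
    by_cases hlow : j + 1 ≤ low o
    · simp only [err, gapS, st_low V o b hlow]
      exact ⟨two_le_start V o, mul_le_mul_of_nonneg_right (Rt_mono V (Nat.sub_le _ _))
        (by linarith [two_le_start V o])⟩
    obtain ⟨hE, hG⟩ := ih (by omega)
    obtain ⟨r, hr⟩ : ∃ r, r = d - (j + 1) := ⟨_, rfl⟩
    rw [show d - j = r + 1 by omega] at hG
    rw [← hr]
    simp only [Rt] at hG
    have hR := five_le_Rt V r
    have hK := one_le_bd V
    obtain ⟨w1, w2⟩ := win_aux (E := err V o b j) (G := gapS V o b j)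
      (a := 10 * (bd V : ℝ) ^ 3 * Rt V r) (by linarith) (by positivity) hG
    have hK3 : (1 : ℝ) ≤ (bd V : ℝ) ^ 3 := one_le_pow₀ hK
    have hj' : low o ≤ (⟨j, by omega⟩ : Fin d) := by simp; omega
    have hw : err V o b j ≤ win V o b j := by
      refine le_trans ?_ w1
      exact le_mul_of_one_le_left (by linarith) (by nlinarith)
    cases hb : b ⟨j, by omega⟩ with
    | true =>
      obtain ⟨e1, e2⟩ := err_snap V o hj' hb
      rw [show err V o b (j + 1) = _ from e1, show gapS V o b (j + 1) = _ from e2]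
      refine ⟨by linarith, ?_⟩
      rw [le_div_iff₀ (by positivity)]
      refine le_trans ?_ w2
      have hwn : 0 ≤ win V o b j := Real.sqrt_nonneg _
      calc Rt V r * (2 * win V o b j) * (bd V : ℝ) ^ 2
          = (2 * (bd V : ℝ) ^ 2) * (Rt V r * win V o b j) := by ring
        _ ≤ (10 * (bd V : ℝ) ^ 3) * (Rt V r * win V o b j) := by
          refine mul_le_mul_of_nonneg_right ?_ (by positivity)
          nlinarith [sq_nonneg (bd V : ℝ)]
        _ = 10 * (bd V : ℝ) ^ 3 * Rt V r * win V o b j := by ring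
    | false =>
      obtain ⟨e1, e2⟩ := err_free V o hj' hb
      rw [show err V o b (j + 1) = _ from e1, show gapS V o b (j + 1) = _ from e2]
      refine ⟨hE, le_trans ?_ w1⟩
      exact mul_le_mul_of_nonneg_right (by nlinarith) (by linarith)

lemma scales (b : Fin d → Bool) (j : Fin d) :
    2 ≤ err V o b j ∧ 50 * err V o b j ≤ win V o b j ∧
      50 * win V o b j ≤ gapS V o b j / (bd V : ℝ) ^ 2 := by
  obtain ⟨hE, hG⟩ := inv_scales V o b j j.2.le
  obtain ⟨r, hr⟩ : ∃ r, r + 1 = d - (j : ℕ) := ⟨d - j - 1, by omega⟩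
  rw [← hr] at hG
  simp only [Rt] at hG
  have hR := five_le_Rt V r
  have hK := one_le_bd V
  obtain ⟨w1, w2⟩ := win_aux (E := err V o b j) (G := gapS V o b j)
    (a := 10 * (bd V : ℝ) ^ 3 * Rt V r) (by linarith) (by positivity) hG
  have hK3 : (1 : ℝ) ≤ (bd V : ℝ) ^ 3 := one_le_pow₀ hK
  have hK2 : (bd V : ℝ) ^ 2 ≤ (bd V : ℝ) ^ 3 := pow_le_pow_right₀ hK (by norm_num)
  refine ⟨hE, le_trans ?_ w1, ?_⟩
  · exact mul_le_mul_of_nonneg_right (by nlinarith) (by linarith)
  · rw [le_div_iff₀ (by positivity)]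
    refine le_trans ?_ w2
    have hwn : 0 ≤ win V o b j := Real.sqrt_nonneg _
    calc 50 * win V o b j * (bd V : ℝ) ^ 2 = (50 * (bd V : ℝ) ^ 2) * win V o b j := by ring
      _ ≤ (10 * (bd V : ℝ) ^ 3 * Rt V r) * win V o b j :=
        mul_le_mul_of_nonneg_right (by nlinarith) hwn

lemma err_succ_le (b : Fin d → Bool) (j : Fin d) : err V o b j ≤ err V o b (j + 1) := by
  by_cases hj : low o ≤ j
  · obtain ⟨h1, h2, -⟩ := scales V o b j
    cases hb : b j with
    | true => rw [(err_snap V o hj hb).1]; linarith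
    | false => rw [(err_free V o hj hb).1]
  · simp only [err]
    rw [st_low V o b (by omega), st_low V o b (by omega)]

lemma gapS_succ_le (b : Fin d → Bool) (j : Fin d) : gapS V o b (j + 1) ≤ gapS V o b j := by
  by_cases hj : low o ≤ j
  · obtain ⟨h1, h2, h3⟩ := scales V o b j
    have hK2 : (1 : ℝ) ≤ (bd V : ℝ) ^ 2 := one_le_pow₀ (one_le_bd V)
    have hG : gapS V o b j / (bd V : ℝ) ^ 2 ≤ gapS V o b j := by
      have h0 : 0 ≤ gapS V o b j / (bd V : ℝ) ^ 2 := by linarith
      calc gapS V o b j / (bd V : ℝ) ^ 2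
          ≤ gapS V o b j / (bd V : ℝ) ^ 2 * (bd V : ℝ) ^ 2 := le_mul_of_one_le_right h0 hK2
        _ = gapS V o b j := div_mul_cancel₀ _ (by positivity)
    cases hb : b j with
    | true => rw [(err_snap V o hj hb).2]; exact hG
    | false => rw [(err_free V o hj hb).2]; linarith
  · simp only [gapS]
    rw [st_low V o b (by omega), st_low V o b (by omega)]

lemma err_mono (b : Fin d → Bool) {i j : ℕ} (hij : i ≤ j) (hj : j ≤ d) :
    err V o b i ≤ err V o b j := by
  induction j, hij using Nat.le_induction with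
  | base => exact le_rfl
  | succ k _ ih => exact (ih (by omega)).trans (err_succ_le V o b ⟨k, by omega⟩)

/-- Order constraints at position `j`. -/
def Cap (j : Fin d) (n : Fin d → ℝ) (x : ℝ) : Prop :=
  (∀ i : Fin d, (i : ℕ) + 1 = j → x ≤ n i) ∧ (o.isSome → x ≤ 0)

/-- The grid. -/
def grid : Finset ℝ := (Finset.Icc (-(botB V : ℤ)) (topH V : ℤ)).image fun z : ℤ => (z : ℝ)

/-- An admissible value at position `j`, snapped (`true`) or free (`false`). -/
def Adm (j : Fin d) (n : Fin d → ℝ) (b : Fin d → Bool) (x : ℝ) (bit : Bool) : Prop :=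
  Cap o j n x ∧ (bit = true → x ∈ Lev V j n) ∧
    (bit = false → (x ∈ grid V ∨ x - win V o b j ∈ Lev V j n) ∧
      ∀ ℓ ∈ Lev V j n, win V o b j ≤ |x - ℓ|)

/-- Validity of the first `k` positions. -/
def PValid (n : Fin d → ℝ) (b : Fin d → Bool) (k : ℕ) : Prop :=
  ∀ j : Fin d, (j : ℕ) < k →
    ((j : ℕ) < low o → n j = 0) ∧ (low o ≤ j → Adm V o j n b (n j) (b j))

/-- Validity of a path. -/
def Valid (n : Fin d → ℝ) (b : Fin d → Bool) : Prop := PValid V o n b d

/-- Shifted value. -/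
def thv (b : Fin d → Bool) (j : Fin d) (x : ℝ) (bit : Bool) : ℝ :=
  if bit = true then x - win V o b j else x

/-- The exponent of a path at position `j`. -/
def theta (n : Fin d → ℝ) (b : Fin d → Bool) (j : Fin d) : ℝ := thv V o b j (n j) (b j)

variable {V o}

lemma PValid.mono {n : Fin d → ℝ} {b : Fin d → Bool} {k k' : ℕ} (h : PValid V o n b k)
    (hk : k' ≤ k) : PValid V o n b k' :=
  fun j hj => h j (lt_of_lt_of_le hj hk)

lemma Valid.pre {n : Fin d → ℝ} {b : Fin d → Bool} (h : Valid V o n b) (j : Fin d) :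
    PValid V o n b j :=
  h.mono j.2.le

lemma PValid.nonpos {n : Fin d → ℝ} {b : Fin d → Bool} {k : ℕ} (h : PValid V o n b k)
    (ho : o.isSome) {i : Fin d} (hi : (i : ℕ) < k) : n i ≤ 0 := by
  obtain ⟨h1, h2⟩ := h i hi
  by_cases hl : (i : ℕ) < low o
  · rw [h1 hl]
  · exact (h2 (by omega)).1.2 ho

lemma Valid.antitone {n : Fin d → ℝ} {b : Fin d → Bool} (h : Valid V o n b) : Antitone n := by
  have key : ∀ j : ℕ, ∀ i k : Fin d, (i : ℕ) ≤ k → (k : ℕ) = j → n k ≤ n i := by
    intro j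
    induction j with
    | zero => intro i k hik hk; rw [show i = k from Fin.ext (by omega)]
    | succ j ih =>
      intro i k hik hk
      rcases eq_or_lt_of_le hik with he | hlt
      · rw [Fin.ext he]
      · refine le_trans ?_ (ih i ⟨j, by omega⟩ (by simp; omega) rfl)
        obtain ⟨h1, h2⟩ := h k k.2
        by_cases hl : (k : ℕ) < low o
        · rw [h1 hl, (h ⟨j, by omega⟩ (by simp; omega)).1 (by simp; omega)]
        · exact (h2 (by omega)).1.1 ⟨j, by omega⟩ (by simp; omega)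
  exact fun i k hik => key k i k hik rfl

lemma lev_sep_aux {n : Fin d → ℝ} {b : Fin d → Bool} {j : Fin d}
    (hgap : ∀ u ∈ Dr V (d - j), (∀ i : Fin d, (j : ℕ) ≤ i → u i = 0) →
      dot u n = 0 ∨ gapS V o b j ≤ |dot u n|)
    {ℓ ℓ' : ℝ} (hl : ℓ ∈ Lev V j n) (hl' : ℓ' ∈ Lev V j n) (hne : ℓ ≠ ℓ') :
    gapS V o b j / (bd V : ℝ) ^ 2 ≤ |ℓ - ℓ'| := by
  simp only [Lev, mem_image, mem_filter] at hl hl'
  obtain ⟨v, ⟨hv, v0, vs⟩, rfl⟩ := hl
  obtain ⟨u, ⟨hu, u0, us⟩, rfl⟩ := hl'
  have hw : v j • u - u j • v ∈ Dr V (d - j) := by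
    have := comb_mem V j hv hu
    rwa [show d - (j : ℕ) - 1 + 1 = d - j by omega] at this
  have hsupp : ∀ i : Fin d, (j : ℕ) ≤ i → (v j • u - u j • v) i = 0 := by
    intro i hi
    rcases eq_or_lt_of_le hi with he | hlt
    · rw [← Fin.ext he]; simp; ring
    · simp [vs i hlt, us i hlt]
  have hdot : dot (v j • u - u j • v) n = (v j : ℝ) * u j * (lev v j n - lev u j n) := by
    have h1 : dot (v j • u - u j • v) n = (v j : ℝ) * dot u n - u j * dot v n := by
      simp only [dot, Finset.mul_sum, ← Finset.sum_sub_distrib]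
      refine Finset.sum_congr rfl fun i _ => ?_
      simp
      ring
    rw [h1, dot_eq_lev v0 vs, dot_eq_lev u0 us]
    ring
  rcases hgap _ hw hsupp with h | h
  · exfalso
    rw [hdot] at h
    simp only [mul_eq_zero, Int.cast_eq_zero, sub_eq_zero] at h
    tauto
  · rw [hdot, abs_mul, abs_mul] at h
    rw [div_le_iff₀ (by have := one_le_bd V; positivity)]
    have h1 : |(v j : ℝ)| * |(u j : ℝ)| ≤ (bd V : ℝ) ^ 2 := by
      rw [sq]
      exact mul_le_mul (abs_le_bd V (by omega) hv j) (abs_le_bd V (by omega) hu j) (abs_nonneg _)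
        (by positivity)
    nlinarith [abs_nonneg (lev v j n - lev u j n)]

lemma gap {n : Fin d → ℝ} {b : Fin d → Bool} : ∀ k : ℕ, k ≤ d → PValid V o n b k →
    ∀ u ∈ Dr V (d - k), (∀ i : Fin d, k ≤ (i : ℕ) → u i = 0) →
      dot u n = 0 ∨ gapS V o b k ≤ |dot u n| := by
  intro k
  induction k with
  | zero =>
    intro _ _ u _ hu
    exact Or.inl (Finset.sum_eq_zero fun i _ => by simp [hu i (Nat.zero_le _)])
  | succ k ih =>
    intro hk hp u hu hs
    set j : Fin d := ⟨k, by omega⟩ with hjdef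
    by_cases hl : low o ≤ k
    swap
    · refine Or.inl (Finset.sum_eq_zero fun i _ => ?_)
      by_cases hi : k + 1 ≤ (i : ℕ)
      · simp [hs i hi]
      · simp [(hp i (by omega)).1 (by omega)]
    have ih' := ih (by omega) (hp.mono (Nat.le_succ k))
    by_cases huj : u j = 0
    · refine (ih' u (Dr_mono V (by omega) hu) fun i hi => ?_).imp id
        (le_trans (gapS_succ_le V o b j))
      rcases eq_or_lt_of_le hi with he | hlt
      · rw [show i = j from Fin.ext he.symm, huj]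
      · exact hs i hlt
    have hsj : ∀ i : Fin d, j < i → u i = 0 := fun i hi => hs i hi
    have hu' : u ∈ Dr V (d - (j : ℕ) - 1) := by rwa [show d - (j : ℕ) - 1 = d - (k + 1) from rfl]
    have hlm := lev_mem V hu' huj hsj n
    rw [dot_eq_lev huj hsj, abs_mul]
    have h1 := one_le_abs_cast huj
    obtain ⟨hc, hsn, hfr⟩ := (hp j (Nat.lt_succ_self k)).2 hl
    cases hb : b j with
    | true =>
      rw [show gapS V o b (k + 1) = _ from (err_snap V o (j := j) hl hb).2]
      by_cases he : n j = lev u j n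
      · left; simp [he]
      · right
        calc _ ≤ |n j - lev u j n| := lev_sep_aux ih' (hsn hb) hlm he
          _ ≤ _ := le_mul_of_one_le_left (abs_nonneg _) h1
    | false =>
      rw [show gapS V o b (k + 1) = _ from (err_free V o (j := j) hl hb).2]
      right
      calc _ ≤ |n j - lev u j n| := (hfr hb).2 _ hlm
        _ ≤ _ := le_mul_of_one_le_left (abs_nonneg _) h1

lemma lev_sep {n : Fin d → ℝ} {b : Fin d → Bool} {j : Fin d} (hp : PValid V o n b j)
    {ℓ ℓ' : ℝ} (hl : ℓ ∈ Lev V j n) (hl' : ℓ' ∈ Lev V j n) (hne : ℓ ≠ ℓ') :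
    50 * win V o b j ≤ |ℓ - ℓ'| :=
  le_trans (scales V o b j).2.2 (lev_sep_aux (gap (j : ℕ) j.2.le hp) hl hl' hne)

lemma extend {n : Fin d → ℝ} {b : Fin d → Bool} {j : Fin d} {x ξ : ℝ} {bit : Bool}
    (hp : PValid V o n b j) (hj : low o ≤ j) (ha : Adm V o j n b x bit)
    (ht : thv V o b j x bit ≤ ξ) :
    ∃ n' b', Valid V o n' b' ∧ (∀ i, i < j → n' i = n i ∧ theta V o n' b' i = theta V o n b i) ∧
      ∀ i, j ≤ i → n' i = x ∧ theta V o n' b' i ≤ ξ := by
  set n' : Fin d → ℝ := fun i => if i < j then n i else x with hn'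
  set b' : Fin d → Bool := fun i => if i < j then b i else if i = j then bit else true with hb'
  have nlt : ∀ i, i < j → n' i = n i := fun i hi => by simp [hn', hi]
  have nge : ∀ i, j ≤ i → n' i = x := fun i hi => by simp [hn', not_lt.mpr hi]
  have blt : ∀ i, i < j → b' i = b i := fun i hi => by simp [hb', hi]
  have bj : b' j = bit := by simp [hb']
  have bgt : ∀ i, j < i → b' i = true := fun i hi => by simp [hb', not_lt.mpr hi.le, hi.ne']
  have hwin : ∀ i : Fin d, i ≤ j → win V o b' i = win V o b i := fun i hi => by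
    have h : ∀ k : Fin d, (k : ℕ) < i → b' k = b k := fun k hk => blt k (lt_of_lt_of_le hk hi)
    simp [win, err, gapS, st_congr V o h]
  refine ⟨n', b', fun i _ => ⟨fun hl => ?_, fun hl => ?_⟩,
    fun i hi => ⟨nlt i hi, ?_⟩, fun i hi => ⟨nge i hi, ?_⟩⟩
  · have hij : i < j := Fin.lt_def.mpr (by omega)
    rw [nlt i hij]
    exact (hp i hij).1 hl
  · rcases le_or_gt i j with hij | hij
    · have hL : Lev V i n' = Lev V i n := Lev_congr V fun k hk => nlt k (lt_of_lt_of_le hk hij)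
      have key : ∀ y bb, Adm V o i n b y bb → Adm V o i n' b' y bb := by
        intro y bb hA
        refine ⟨⟨fun k hk => ?_, hA.1.2⟩, ?_, ?_⟩
        · rw [nlt k (lt_of_lt_of_le (Fin.lt_def.mpr (by omega)) hij)]
          exact hA.1.1 k hk
        · rw [hL]; exact hA.2.1
        · rw [hL, hwin i hij]; exact hA.2.2
      rcases eq_or_lt_of_le hij with he | hlt
      · subst he
        rw [nge i le_rfl, bj]
        exact key _ _ ha
      · rw [nlt i hlt, blt i hlt]
        exact key _ _ ((hp i hlt).2 hl)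
    · rw [nge i hij.le, bgt i hij]
      have hi0 : 0 < (i : ℕ) := lt_of_le_of_lt (Nat.zero_le _) hij
      have hk : n' ⟨i - 1, by omega⟩ = x :=
        nge _ (Fin.le_def.mpr (by simp; omega))
      refine ⟨⟨fun k hk' => ?_, ha.1.2⟩, fun _ => ?_, by simp⟩
      · rw [show k = ⟨i - 1, by omega⟩ from Fin.ext (by simp; omega), hk]
      · rw [← hk]
        exact prev_mem_Lev V (Fin.lt_def.mpr (by simp; omega)) n'
  · simp only [theta, thv, nlt i hi, blt i hi, hwin i hi.le]
  · rcases eq_or_lt_of_le hi with he | hlt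
    · subst he
      simpa [theta, thv, nge j le_rfl, bj, hwin j le_rfl] using ht
    · simp only [theta, thv, nge i hi, bgt i hlt, if_true]
      have h1 : x - err V o b' (j + 1) ≤ ξ := by
        have hw : 0 ≤ win V o b j := Real.sqrt_nonneg _
        cases bit with
        | true =>
          rw [(err_snap V o hj bj).1, hwin j le_rfl]
          simp only [thv, if_true] at ht
          linarith
        | false =>
          rw [(err_free V o hj bj).1]
          simp [thv] at ht
          linarith [(scales V o b' j).1]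
      have h2 := err_mono V o b' (i := (j : ℕ) + 1) (j := i) hlt i.2.le
      obtain ⟨h3, h4, -⟩ := scales V o b' i
      linarith

lemma top_level {n : Fin d → ℝ} {b : Fin d → Bool} {j : Fin d} (hp : PValid V o n b j) {ξ E : ℝ}
    (hc1 : ∀ i : Fin d, (i : ℕ) + 1 = j → ξ ≤ n i + E) (hc2 : o.isSome → (j : ℕ) = 0 → ξ ≤ E) :
    (∃ p ∈ Lev V j n, Cap o j n p ∧ (∀ y, Cap o j n y → y ≤ p) ∧ ξ ≤ p + E) ∨
      ∀ y, Cap o j n y := by
  rcases Nat.eq_zero_or_pos (j : ℕ) with h0 | hpos
  · cases ho : o.isSome with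
    | true =>
      refine Or.inl ⟨0, zero_mem_Lev V j n, ⟨fun i hi => by omega, fun _ => le_rfl⟩,
        fun y hy => hy.2 (by simp [ho]), ?_⟩
      linarith [hc2 (by simp [ho]) h0]
    | false => exact Or.inr fun y => ⟨fun i hi => by omega, fun h => by simp [ho] at h⟩
  · obtain ⟨i, hi⟩ : ∃ i : Fin d, (i : ℕ) + 1 = j := ⟨⟨(j : ℕ) - 1, by omega⟩, by simp; omega⟩
    refine Or.inl ⟨n i, prev_mem_Lev V (Fin.lt_def.mpr (by omega)) n,
      ⟨fun k hk => ?_, fun ho => hp.nonpos ho (by omega)⟩, fun y hy => hy.1 i hi, hc1 i hi⟩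
    rw [show k = i from Fin.ext (by omega)]

lemma choice {n : Fin d → ℝ} {b : Fin d → Bool} {j : Fin d}
    (hp : PValid V o n b j) {ξ : ℝ} (h1 : -(botB V : ℝ) ≤ ξ) (h2 : ξ ≤ topH V)
    (hc1 : ∀ i : Fin d, (i : ℕ) + 1 = j → ξ ≤ n i + err V o b j)
    (hc2 : o.isSome → (j : ℕ) = 0 → ξ ≤ err V o b j) :
    ∃ x bit, Adm V o j n b x bit ∧ thv V o b j x bit ≤ ξ ∧
      ((x ∈ Lev V j n ∧ (∀ y, Cap o j n y → y ≤ x) ∧ ξ ≤ x + err V o b j) ∨
        (x ∈ Lev V j n ∧ ξ < x + win V o b j) ∨ ξ - 1 ≤ x) := by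
  set w := win V o b j with hw
  have hw0 : 0 < w := by linarith [(scales V o b j).1, (scales V o b j).2.1]
  have hcap : (∃ p ∈ Lev V j n, Cap o j n p ∧ (∀ y, Cap o j n y → y ≤ p) ∧
      ξ ≤ p + err V o b j ∧ p - w ≤ ξ) ∨ ∀ y, y ≤ ξ + w → Cap o j n y := by
    rcases top_level hp hc1 hc2 with ⟨p, hpL, hpc, hmax, hpe⟩ | hall
    · by_cases hpx : p - w ≤ ξ
      · exact Or.inl ⟨p, hpL, hpc, hmax, hpe, hpx⟩
      · refine Or.inr fun y hy => ?_
        have hyp : y ≤ p := by linarith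
        exact ⟨fun i hi => hyp.trans (hpc.1 i hi), fun ho => hyp.trans (hpc.2 ho)⟩
    · exact Or.inr fun y _ => hall y
  rcases hcap with ⟨p, hpL, hpc, hmax, hpe, hpx⟩ | hcap
  · exact ⟨p, true, ⟨hpc, fun _ => hpL, by simp⟩, by simpa [thv] using hpx,
      Or.inl ⟨hpL, hmax, hpe⟩⟩
  by_cases hl : ∃ ℓ ∈ Lev V j n, ℓ - w ≤ ξ ∧ ξ < ℓ + w
  · obtain ⟨ℓ, hlL, hl1, hl2⟩ := hl
    exact ⟨ℓ, true, ⟨hcap ℓ (by linarith), fun _ => hlL, by simp⟩, by simpa [thv] using hl1,
      Or.inr (Or.inl ⟨hlL, hl2⟩)⟩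
  push Not at hl
  have hg1 : ((⌊ξ⌋ : ℤ) : ℝ) ≤ ξ := Int.floor_le ξ
  have hg2 : ξ < (⌊ξ⌋ : ℤ) + 1 := Int.lt_floor_add_one ξ
  by_cases hfree : ∀ ℓ ∈ Lev V j n, w ≤ |((⌊ξ⌋ : ℤ) : ℝ) - ℓ|
  · refine ⟨(⌊ξ⌋ : ℤ), false, ⟨hcap _ (by linarith), by simp, fun _ => ⟨Or.inl ?_, hfree⟩⟩,
      by simpa [thv] using hg1, Or.inr (Or.inr (by linarith))⟩
    refine mem_image.mpr ⟨⌊ξ⌋, Finset.mem_Icc.mpr ⟨Int.le_floor.mpr ?_, ?_⟩, rfl⟩
    · push_cast
      exact h1
    · rw [← Int.lt_add_one_iff, Int.floor_lt]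
      push_cast
      linarith
  push Not at hfree
  obtain ⟨ℓ, hlL, hlw⟩ := hfree
  obtain ⟨a1, a2⟩ := abs_lt.mp hlw
  have hx : ℓ + w ≤ ξ := hl ℓ hlL (by linarith)
  refine ⟨ℓ + w, false, ⟨hcap _ (by linarith), by simp, fun _ => ⟨Or.inr ?_, fun ℓ' hl' => ?_⟩⟩,
    by simpa [thv] using hx, Or.inr (Or.inr (by linarith))⟩
  · rw [← hw, add_sub_cancel_right]; exact hlL
  · rcases eq_or_ne ℓ ℓ' with he | hne
    · subst he; simp [abs_of_pos hw0, ← hw]
    · have hs := lev_sep hp hlL hl' hne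
      rw [← hw] at hs ⊢
      rcases le_or_gt 0 (ℓ - ℓ') with h | h
      · rw [abs_of_nonneg h] at hs
        rw [abs_of_nonneg (by linarith)]
        linarith
      · rw [abs_of_neg h] at hs
        rw [abs_of_neg (by linarith)]
        linarith

lemma dot_sub_le {v : Fin d → ℤ} (hv : v ∈ base V) {n ξ : Fin d → ℝ} {E : ℝ} (hE : 0 ≤ E)
    (h : ∀ i, |ξ i - n i| ≤ E) : |dot v ξ - dot v n| ≤ bd V * E := by
  calc |dot v ξ - dot v n| = |∑ i, (v i : ℝ) * (ξ i - n i)| := by
        simp [dot, ← Finset.sum_sub_distrib, mul_sub]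
    _ ≤ ∑ i, |(v i : ℝ) * (ξ i - n i)| := Finset.abs_sum_le_sum_abs _ _
    _ ≤ ∑ i, |(v i : ℝ)| * E := by
        refine Finset.sum_le_sum fun i _ => ?_
        rw [abs_mul]
        exact mul_le_mul_of_nonneg_left (h i) (abs_nonneg _)
    _ ≤ bd V * E := by
        rw [← Finset.sum_mul]
        exact mul_le_mul_of_nonneg_right (abs_sum_le_bd V (Nat.zero_le d) hv) hE

end

end Vale.Agent.P072
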