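import Mathlib
import Vale.Agent.P072.Paths

/-!
The constraint functions, bounds on the region they cut out, and the direction lemma:
on an active constraint, the exponent vector orders the monomials.
-/

namespace Vale.Agent.P072

open Finset

noncomputable section

variable {d : ℕ} (V : Finset (Fin d → ℤ))

/-- Coefficient of the constant of a family. -/
def coef : Option (Fin d) → ℝ
  | none => 1
  | some _ => -(1 / 2)

/-- Exponent of the constant of a family. -/
def expo : Option (Fin d) → ℝ
  | none => 1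
  | some m => -(Rt V d * e0 V m)

/-- The constraint of a path and a permutation at parameter `L`. -/
def con (L : ℝ) (o : Option (Fin d)) (n : Fin d → ℝ) (b : Fin d → Bool)
    (σ : Equiv.Perm (Fin d)) (x : Fin d → ℝ) : ℝ :=
  L * (∑ i, n i * x (σ i))
    - ∑ i ∈ univ.filter (fun i : Fin d => low o ≤ i), Real.exp (L * theta V o n b i)
    - coef o * Real.exp (L * expo V o)

/-- The positive points satisfying all constraints. -/
def Om (L : ℝ) : Set (Fin d → ℝ) :=
  {x | (∀ i, 0 < x i) ∧ ∀ o n b σ, Valid V o n b → con V L o n b σ x ≤ 0}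

lemma valid_finite (o : Option (Fin d)) (b : Fin d → Bool) :
    {n | Valid V o n b}.Finite := by
  have key : ∀ k, k ≤ d → ((fun n i => if (i : Fin d).val < k then n i else (0 : ℝ)) ''
      {n | Valid V o n b}).Finite := by
    intro k
    induction k with
    | zero =>
      refine fun _ => (Set.finite_singleton (0 : Fin d → ℝ)).subset ?_
      rintro _ ⟨n, -, rfl⟩
      funext i
      simp
    | succ k ih =>
      intro hk
      set j : Fin d := ⟨k, by omega⟩
      refine ((ih (by omega)).biUnion fun q _ =>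
        ((({0} ∪ grid V ∪ Lev V j q ∪ (Lev V j q).image (· + win V o b j) : Finset ℝ)).finite_toSet.image
          (Function.update q j))).subset ?_
      rintro _ ⟨n, hn, rfl⟩
      refine Set.mem_biUnion (Set.mem_image_of_mem _ hn) ⟨n j, ?_, ?_⟩
      · set q := fun i : Fin d => if i.val < k then n i else (0 : ℝ)
        have hL : Lev V j q = Lev V j n := Lev_congr V fun i hi => if_pos hi
        obtain ⟨h1, h2⟩ := hn j j.2
        simp only [Finset.coe_union, Set.mem_union, Finset.mem_coe, Finset.mem_singleton,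
          Finset.mem_image, hL]
        by_cases hl : (j : ℕ) < low o
        · exact Or.inl (Or.inl (Or.inl (h1 hl)))
        obtain ⟨-, hs, hf⟩ := h2 (by omega)
        cases hb : b j with
        | true => exact Or.inl (Or.inr (hs hb))
        | false =>
          rcases (hf hb).1 with hg | hg
          · exact Or.inl (Or.inl (Or.inr hg))
          · exact Or.inr ⟨_, hg, by ring⟩
      · funext i
        by_cases hi : i = j
        · subst hi
          simp [j]
        · have : i.val ≠ k := fun h => hi (Fin.ext h)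
          rw [Function.update_of_ne hi]
          by_cases hik : i.val < k
          · simp [hik, hik.trans (Nat.lt_succ_self k)]
          · simp [hik, show ¬ i.val < k + 1 by omega]
  refine Set.Finite.subset (key d le_rfl) fun n hn => ⟨n, hn, ?_⟩
  funext i
  simp

lemma exists_valid_bound : ∃ R : ℝ, 0 ≤ R ∧ ∀ o n b, Valid V o n b → ∀ i, |n i| ≤ R := by
  have hfin : (⋃ q : Option (Fin d) × (Fin d → Bool), {n | Valid V q.1 n q.2}).Finite :=
    Set.finite_iUnion fun q => valid_finite V q.1 q.2
  obtain ⟨R, hR⟩ := hfin.isBounded.exists_norm_le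
  refine ⟨max R 0, le_max_right _ _, fun o n b hn i => ?_⟩
  exact le_max_of_le_left ((norm_le_pi_norm n i).trans (hR n (Set.mem_iUnion.mpr ⟨(o, b), hn⟩)))

lemma lin_lt_exp {A L : ℝ} (hA : 0 ≤ A) (hL : 2 * A + 2 ≤ L) : A * L + A < Real.exp L := by
  have := Real.quadratic_le_exp_of_nonneg (show 0 ≤ L by linarith)
  nlinarith

variable {V}

lemma win_low_le {o : Option (Fin d)} (b : Fin d → Bool) {j : ℕ} (hj : j ≤ low o) :
    win V o b j ≤ Rt V d * start V o := by
  have := five_le_Rt V d
  have := two_le_start V o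
  simp only [win, err, gapS, st_low V o b hj]
  rw [Real.sqrt_le_iff]
  constructor <;> nlinarith

/-- Upper bound on the region. -/
lemma Om_upper {L : ℝ} (hL : (d : ℝ) + 1 ≤ L) {x : Fin d → ℝ} (hx : x ∈ Om V L) (i : Fin d) :
    x i ≤ Real.exp (L * topH V) := by
  set j : Fin d := ⟨0, i.pos⟩
  set b : Fin d → Bool := fun _ => false
  have hp : PValid V none (fun _ => (0 : ℝ)) b j := fun k hk => absurd hk (Nat.not_lt_zero _)
  have hH : Rt V d * 2 ≤ (topH V : ℝ) := by
    rw [mul_comm]
    exact Nat.le_ceil _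
  have ha : Adm V none j (fun _ => (0 : ℝ)) b (topH V) false := by
    refine ⟨⟨fun k hk => absurd hk (Nat.succ_ne_zero _), by simp⟩, by simp, fun _ => ⟨Or.inl ?_, ?_⟩⟩
    · exact mem_image.mpr ⟨(topH V : ℤ), Finset.mem_Icc.mpr ⟨by omega, le_rfl⟩, by simp⟩
    · intro ℓ hl
      simp only [Lev, mem_image] at hl
      obtain ⟨v, -, rfl⟩ := hl
      simp [lev]
      exact (win_low_le (o := none) b le_rfl).trans hH
  obtain ⟨n', b', hv, -, hge⟩ := extend hp (Nat.zero_le _) ha (ξ := topH V) (by simp [thv])
  have hc := hx.2 none n' b' 1 hv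
  have hn : ∀ k, n' k = topH V := fun k => (hge k (Fin.le_def.mpr (Nat.zero_le _))).1
  have hsum : x i ≤ ∑ k, x k := Finset.single_le_sum (fun k _ => (hx.1 k).le) (mem_univ i)
  have hexp : ∑ k ∈ univ.filter (fun k : Fin d => low (none : Option (Fin d)) ≤ k),
      Real.exp (L * theta V none n' b' k) ≤ d * Real.exp (L * topH V) := by
    refine le_trans (Finset.sum_le_card_nsmul _ _ (Real.exp (L * topH V)) fun k _ => ?_) ?_
    · refine Real.exp_le_exp.mpr (mul_le_mul_of_nonneg_left ?_ ?_)
      · exact (hge k (Fin.le_def.mpr (Nat.zero_le _))).2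
      · linarith [(Nat.cast_nonneg d : (0:ℝ) ≤ d)]
    · simp [low]
  simp only [con, coef, expo, hn, Equiv.Perm.coe_one, id_eq, ← Finset.mul_sum, one_mul, mul_one] at hc
  have h1 : (1 : ℝ) ≤ topH V := by linarith [five_le_Rt V d]
  have hd := (Nat.cast_nonneg d : (0:ℝ) ≤ d)
  have h2 : Real.exp L ≤ Real.exp (L * topH V) := Real.exp_le_exp.mpr (by nlinarith)
  have h3 : L * x i ≤ L * ((topH V : ℝ) * ∑ k, x k) := by
    refine mul_le_mul_of_nonneg_left ?_ (by linarith)
    nlinarith [(hx.1 i).le]
  have h4 : L * x i ≤ L * Real.exp (L * topH V) := by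
    nlinarith [Real.exp_pos (L * topH V)]
  exact le_of_mul_le_mul_left h4 (by linarith)

/-- Lower bound on a sorted coordinate. -/
lemma Om_lower_sorted {L : ℝ} (hL : 2 * ((botB V : ℝ) * d * 2 + 2 * d) + 2 ≤ L) {x : Fin d → ℝ}
    (hx : x ∈ Om V L) {τ : Equiv.Perm (Fin d)} (hτ : Antitone fun i => x (τ i)) (m : Fin d) :
    Real.exp (-L * (Rt V d * e0 V m + 1)) ≤ x (τ m) := by
  set b : Fin d → Bool := fun _ => false
  have hp : PValid V (some m) (fun _ => (0 : ℝ)) b m :=
    fun k hk => ⟨fun _ => rfl, fun h => by simp [low] at h; omega⟩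
  have hB := scale_le_botB V m.2.le
  have ha : Adm V (some m) m (fun _ => (0 : ℝ)) b (-(botB V : ℝ)) false := by
    refine ⟨⟨fun k _ => by simp, by simp⟩, by simp, fun _ => ⟨Or.inl ?_, ?_⟩⟩
    · exact mem_image.mpr ⟨-(botB V : ℤ), Finset.mem_Icc.mpr ⟨le_rfl, by omega⟩, by simp⟩
    · intro ℓ hl
      simp only [Lev, mem_image] at hl
      obtain ⟨v, -, rfl⟩ := hl
      simp [lev]
      refine (win_low_le (o := some m) b (j := m) le_rfl).trans ?_
      simp only [start]
      linarith
  obtain ⟨n', b', hv, hlt, hge⟩ := extend hp le_rfl ha (ξ := -(botB V : ℝ)) (by simp [thv])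
  have hc := hx.2 (some m) n' b' τ hv
  have hd := (Nat.cast_nonneg d : (0:ℝ) ≤ d)
  have hb0 := (Nat.cast_nonneg (botB V) : (0:ℝ) ≤ botB V)
  have hL0 : 0 ≤ L := by nlinarith
  have hlin : -((botB V : ℝ) * d * x (τ m)) ≤ ∑ i, n' i * x (τ i) := by
    calc -((botB V : ℝ) * d * x (τ m)) = ∑ _i : Fin d, -((botB V : ℝ) * x (τ m)) := by simp; ring
      _ ≤ _ := Finset.sum_le_sum fun i _ => ?_
    rcases lt_or_ge i m with hi | hi
    · rw [(hlt i hi).1, zero_mul]
      nlinarith [hx.1 (τ m)]
    · rw [(hge i hi).1]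
      have := hτ hi
      simp only at this
      nlinarith
  have hexp : ∑ k ∈ univ.filter (fun k : Fin d => low (some m) ≤ k),
      Real.exp (L * theta V (some m) n' b' k) ≤ d * Real.exp (L * -(botB V : ℝ)) := by
    refine le_trans (Finset.sum_le_card_nsmul _ _ (Real.exp (L * -(botB V : ℝ))) fun k hk => ?_) ?_
    · refine Real.exp_le_exp.mpr (mul_le_mul_of_nonneg_left ?_ hL0)
      exact (hge k (Fin.le_def.mpr (by simpa [low] using hk))).2
    · rw [nsmul_eq_mul]
      refine mul_le_mul_of_nonneg_right ?_ (Real.exp_pos _).le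
      exact_mod_cast (Finset.card_le_univ _).trans_eq (Fintype.card_fin d)
  simp only [con, coef, expo] at hc
  by_contra hlo
  push Not at hlo
  set a := Rt V d * e0 V m
  have hBexp : Real.exp (L * -(botB V : ℝ)) ≤ Real.exp (-L * (a + 1)) :=
    Real.exp_le_exp.mpr (by nlinarith)
  have hsplit : Real.exp (-L * (a + 1)) * Real.exp L = Real.exp (L * -a) := by
    rw [← Real.exp_add]
    ring_nf
  have hbig := lin_lt_exp (A := (botB V : ℝ) * d * 2 + 2 * d) (by positivity) hL
  set ε := Real.exp (-L * (a + 1))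
  have hε : 0 < ε := Real.exp_pos _
  have h1 : L * ((botB V : ℝ) * d * x (τ m)) ≤ L * ((botB V : ℝ) * d * ε) := by
    gcongr
  have h2 : (d : ℝ) * Real.exp (L * -(botB V : ℝ)) ≤ d * ε := by gcongr
  have h3 : L * -((botB V : ℝ) * d * x (τ m)) ≤ L * ∑ i, n' i * x (τ i) :=
    mul_le_mul_of_nonneg_left hlin hL0
  have hbd : ε * Real.exp L ≤ ε * (2 * (L * ((botB V : ℝ) * d)) + 2 * d) := by
    rw [hsplit]
    nlinarith
  have := le_of_mul_le_mul_left hbd hε
  nlinarith

/-- A sorting permutation. -/
lemma exists_sort (x : Fin d → ℝ) : ∃ τ : Equiv.Perm (Fin d), Antitone fun i => x (τ i) := by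
  refine ⟨Tuple.sort (fun i => -x i), fun i k hik => ?_⟩
  have := Tuple.monotone_sort (fun i => -x i) hik
  simpa using this

lemma Om_lower {L : ℝ} (hL : 2 * ((botB V : ℝ) * d * 2 + 2 * d) + 2 ≤ L) {x : Fin d → ℝ}
    (hx : x ∈ Om V L) (i : Fin d) : Real.exp (-L * botB V) ≤ x i := by
  obtain ⟨τ, hτ⟩ := exists_sort x
  have h := Om_lower_sorted hL hx hτ (τ.symm i)
  rw [Equiv.apply_symm_apply] at h
  refine le_trans (Real.exp_le_exp.mpr ?_) h
  have := scale_le_botB V (τ.symm i).2.le
  have : 0 ≤ L := le_trans (by positivity) hL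
  nlinarith

/-- A maximising path stays close to the sorted logarithms. -/
lemma near {L R : ℝ} (hR0 : 0 ≤ R) (hR : ∀ o n b, Valid V o n b → ∀ i, |n i| ≤ R)
    (hL : 2 * ((botB V : ℝ) * d * 2 + 4 * R * d + 2 * d) + 2 ≤ L) {x : Fin d → ℝ}
    (hx : x ∈ Om V L) {o : Option (Fin d)} {n : Fin d → ℝ} {b : Fin d → Bool}
    {τ : Equiv.Perm (Fin d)} (hn : Valid V o n b) (h0 : con V L o n b τ x = 0)
    (hτ : Antitone fun i => x (τ i)) :
    ∀ i, |Real.log (x (τ i)) / L - n i| ≤ err V o b d := by
  set ξ : Fin d → ℝ := fun i => Real.log (x (τ i)) / L with hξdef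
  have hd := (Nat.cast_nonneg d : (0:ℝ) ≤ d)
  have hb0 := (Nat.cast_nonneg (botB V) : (0:ℝ) ≤ botB V)
  have hRd : 0 ≤ R * d := by positivity
  have hBd : 0 ≤ (botB V : ℝ) * d := by positivity
  have hLd : (d : ℝ) + 1 ≤ L := by nlinarith
  have hL0 : 0 < L := by linarith
  have hLlow : 2 * ((botB V : ℝ) * d * 2 + 2 * d) + 2 ≤ L := by nlinarith
  have hy : ∀ i, Real.exp (L * ξ i) = x (τ i) := fun i => by
    rw [hξdef, mul_div_cancel₀ _ hL0.ne', Real.exp_log (hx.1 _)]
  have hhi : ∀ i, ξ i ≤ topH V := fun i => by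
    rw [hξdef, div_le_iff₀ hL0, Real.log_le_iff_le_exp (hx.1 _), mul_comm]
    exact Om_upper hLd hx _
  have hlos : ∀ i : Fin d, -(Rt V d * e0 V i + 1) ≤ ξ i := fun i => by
    rw [hξdef, le_div_iff₀ hL0, Real.le_log_iff_exp_le (hx.1 _),
      show -(Rt V d * e0 V i + 1) * L = -L * (Rt V d * e0 V i + 1) by ring]
    exact Om_lower_sorted hLlow hx hτ i
  have hlo : ∀ i : Fin d, -(botB V : ℝ) ≤ ξ i := fun i => by
    linarith [hlos i, scale_le_botB V i.2.le]
  have hanti : ∀ i k, i ≤ k → ξ k ≤ ξ i := fun i k hik =>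
    div_le_div_of_nonneg_right (Real.log_le_log (hx.1 _) (hτ hik)) hL0.le
  have hbase : ∀ i : Fin d, (i : ℕ) < low o → |ξ i| ≤ start V o := by
    intro i hi
    cases o with
    | none => simp [low] at hi
    | some m =>
      simp only [low] at hi
      simp only [start]
      rw [abs_le]
      have h1 : e0 V ((i : ℕ) + 1) ≤ e0 V m := e0_mono V hi
      simp only [e0] at h1
      constructor
      · linarith [hlos i]
      · linarith [hhi i, e0_ge V m]
  suffices h : ∀ k : ℕ, k ≤ d → ∀ i : Fin d, (i : ℕ) < k → |ξ i - n i| ≤ err V o b k from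
    fun i => h d le_rfl i i.2
  intro k
  induction k with
  | zero => exact fun _ i hi => absurd hi (Nat.not_lt_zero _)
  | succ k ih =>
    intro hk i hi
    set j : Fin d := ⟨k, by omega⟩
    by_cases hl : low o ≤ k
    swap
    · rw [(hn i i.2).1 (by omega), sub_zero, err, st_low V o b (by omega)]
      exact hbase i (by omega)
    rcases Nat.lt_or_ge (i : ℕ) k with hik | hik
    · exact (ih (by omega) i hik).trans (err_succ_le V o b j)
    have hij : i = j := Fin.ext (show (i : ℕ) = k by omega)
    rw [hij]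

    have hpre := hn.pre j
    have hc1 : ∀ i : Fin d, (i : ℕ) + 1 = j → ξ j ≤ n i + err V o b j := fun i hij => by
      have := hanti i j (Fin.le_def.mpr (by omega))
      linarith [(abs_le.mp (ih (by omega) i (by simp [j] at hij; omega))).2]
    have hc2 : o.isSome → (j : ℕ) = 0 → ξ j ≤ err V o b j := by
      intro ho hj0
      cases o with
      | none => simp at ho
      | some m =>
        rw [err, st_low V _ b (by omega)]
        simp only [start]
        linarith [hhi j, e0_ge V m]
    obtain ⟨hcapj, hsnap, hfree⟩ := (hn j j.2).2 hl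
    obtain ⟨v, bit, hA, hth, hout⟩ := choice hpre (hlo j) (hhi j) hc1 hc2
    obtain ⟨n', b', hv, hlt, hge⟩ := extend hpre hl hA hth
    set T : Fin d → ℝ := fun i =>
      L * (v - n i) * x (τ i) - x (τ j) + Real.exp (L * theta V o n b i)
    have hcomp : ∑ i ∈ univ.filter (fun i => j ≤ i), T i ≤ 0 := by
      have h1 := hx.2 o n' b' τ hv
      have h2 := h0
      simp only [con] at h1 h2
      have h3 : ∑ i ∈ univ.filter (fun i => j ≤ i), T i ≤
          L * (∑ i, n' i * x (τ i)) - L * (∑ i, n i * x (τ i)) -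
          (∑ i ∈ univ.filter (fun i : Fin d => low o ≤ i), Real.exp (L * theta V o n' b' i) -
           ∑ i ∈ univ.filter (fun i : Fin d => low o ≤ i), Real.exp (L * theta V o n b i)) := by
        simp only [Finset.sum_filter, Finset.mul_sum, ← Finset.sum_sub_distrib]
        refine Finset.sum_le_sum fun i _ => ?_
        rcases lt_or_ge i j with hij | hij
        · simp [not_le.mpr hij, (hlt i hij).1, (hlt i hij).2]
        · have hli : low o ≤ (i : ℕ) := le_trans hl (Fin.le_def.mp hij)
          have he : Real.exp (L * theta V o n' b' i) ≤ x (τ j) :=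
            (Real.exp_le_exp.mpr (mul_le_mul_of_nonneg_left (hge i hij).2 hL0.le)).trans_eq (hy j)
          simp only [if_pos hij, if_pos hli, (hge i hij).1, T]
          linarith
      linarith
    have hjmem : j ∈ univ.filter (fun i => j ≤ i) := by simp
    have hcard : ((univ.filter (fun i => j ≤ i)).erase j).card ≤ d :=
      (Finset.card_le_univ _).trans_eq (Fintype.card_fin d)
    have hcardR : (((univ.filter (fun i => j ≤ i)).erase j).card : ℝ) ≤ d := by exact_mod_cast hcard
    have hyj := hx.1 (τ j)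
    -- the shifted exponent is not above the logarithm
    have hA1 : theta V o n b j ≤ ξ j + 1 := by
      by_contra hlt'
      push Not at hlt'
      have hv' : |v| ≤ R := by
        have := hR o n' b' hv j
        rwa [(hge j le_rfl).1] at this
      have hterm : ∀ i, j ≤ i → -(2 * R * L + 1) * x (τ j) + Real.exp (L * theta V o n b i) ≤ T i := by
        intro i hij
        have h1 : -(2 * R) ≤ v - n i := by
          linarith [(abs_le.mp hv').1, (abs_le.mp (hR o n b hn i)).2]
        have h2 : x (τ i) ≤ x (τ j) := hτ hij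
        have h3 : -(2 * R) * x (τ j) ≤ (v - n i) * x (τ i) := by nlinarith [hx.1 (τ i)]
        simp only [T]
        nlinarith
      rw [← Finset.add_sum_erase _ _ hjmem] at hcomp
      have h4 : ∑ i ∈ (univ.filter (fun i => j ≤ i)).erase j, T i ≥
          -(d * ((2 * R * L + 1) * x (τ j))) := by
        refine le_trans ?_ (Finset.card_nsmul_le_sum _ _ (-((2 * R * L + 1) * x (τ j))) fun i hi => ?_)
        · rw [nsmul_eq_mul]
          have : 0 ≤ (2 * R * L + 1) * x (τ j) := by positivity
          nlinarith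
        · have := hterm i (mem_filter.mp (mem_of_mem_erase hi)).2
          nlinarith [Real.exp_pos (L * theta V o n b i)]
      have h5 : Real.exp L * x (τ j) < Real.exp (L * theta V o n b j) := by
        rw [← hy j, ← Real.exp_add]
        exact Real.exp_lt_exp.mpr (by nlinarith)
      have h6 := lin_lt_exp (A := (botB V : ℝ) * d * 2 + 4 * R * d + 2 * d) (by positivity) hL
      have h7 := hterm j le_rfl
      have h8 : (2 * R * L + 1) * (d + 1) < Real.exp L := by
        have hd1 : (1 : ℝ) ≤ d := by
          have : 1 ≤ d := j.pos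
          exact_mod_cast this
        have : R ≤ R * d := le_mul_of_one_le_right hR0 hd1
        nlinarith
      nlinarith [mul_lt_mul_of_pos_right h8 hyj]
    -- no admissible value beats the chosen one by one
    have hB1 : v < n j + 1 := by
      by_contra hge'
      push Not at hge'
      rw [← Finset.add_sum_erase _ _ hjmem] at hcomp
      have h4 : ∑ i ∈ (univ.filter (fun i => j ≤ i)).erase j, T i ≥ -(d * x (τ j)) := by
        refine le_trans ?_ (Finset.card_nsmul_le_sum _ _ (-(x (τ j))) fun i hi => ?_)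
        · rw [nsmul_eq_mul]
          nlinarith
        · have hni : n i ≤ n j := hn.antitone (mem_filter.mp (mem_of_mem_erase hi)).2
          have : 0 ≤ L * (v - n i) * x (τ i) :=
            mul_nonneg (mul_nonneg hL0.le (by linarith)) (hx.1 _).le
          simp only [T]
          linarith [Real.exp_pos (L * theta V o n b i)]
      have h7 : L * x (τ j) - x (τ j) < T j := by
        have : L * x (τ j) ≤ L * (v - n j) * x (τ j) :=
          mul_le_mul_of_nonneg_right (le_mul_of_one_le_right hL0.le (by linarith)) hyj.le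
        simp only [T]
        linarith [Real.exp_pos (L * theta V o n b j)]
      nlinarith [mul_le_mul_of_nonneg_right hLd hyj.le]
    obtain ⟨hE, hw1, hsep⟩ := scales V o b j
    set w := win V o b j with hw
    cases hb : b j with
    | false =>
      rw [show err V o b (k + 1) = _ from (err_free V o (j := j) hl hb).1, abs_le]
      have hlev := (hfree hb).2
      simp [theta, thv, hb] at hA1
      refine ⟨by linarith, ?_⟩
      by_contra hcon
      push Not at hcon
      rcases hout with ⟨hvL, hmax, -⟩ | ⟨hvL, hvlt⟩ | hv1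
      · have h1 := hmax (n j) hcapj
        have h2 := hlev v hvL
        rw [abs_of_nonpos (by linarith)] at h2
        linarith
      · have h2 := hlev v hvL
        rcases le_or_gt (n j) v with h3 | h3
        · rw [abs_of_nonpos (by linarith)] at h2; linarith
        · rw [abs_of_pos (by linarith)] at h2; linarith
      · linarith
    | true =>
      rw [show err V o b (k + 1) = _ from (err_snap V o (j := j) hl hb).1, ← hw, abs_le]
      have hjL := hsnap hb
      simp [theta, thv, hb, ← hw] at hA1
      refine ⟨by linarith, ?_⟩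
      by_contra hcon
      push Not at hcon
      rcases hout with ⟨hvL, hmax, hvE⟩ | ⟨hvL, hvlt⟩ | hv1
      · have h1 := hmax (n j) hcapj
        rcases eq_or_ne (n j) v with he | hne
        · linarith
        · have h2 := lev_sep hpre hjL hvL hne
          rw [abs_of_nonpos (by linarith)] at h2
          linarith
      · linarith
      · linarith

/-- On an active constraint the exponent vector orders the monomials. -/
lemma direction {L R : ℝ} (hR0 : 0 ≤ R) (hR : ∀ o n b, Valid V o n b → ∀ i, |n i| ≤ R)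
    (hL : 2 * ((botB V : ℝ) * d * 2 + 4 * R * d + 2 * d) + 2 ≤ L)
    (hV : ∀ v ∈ V, ∀ τ : Equiv.Perm (Fin d), v ∘ τ ∈ V) {x : Fin d → ℝ}
    (hx : x ∈ Om V L) {o : Option (Fin d)} {n : Fin d → ℝ} {b : Fin d → Bool}
    {σ : Equiv.Perm (Fin d)} (hn : Valid V o n b) (h0 : con V L o n b σ x = 0)
    {v : Fin d → ℤ} (hv : v ∈ V) (hpos : 0 < ∑ q, (v q : ℝ) * n (σ.symm q)) :
    L < ∑ q, (v q : ℝ) * Real.log (x q) := by
  have hd := (Nat.cast_nonneg d : (0:ℝ) ≤ d)
  have hL0 : 0 < L := lt_of_lt_of_le (by positivity) hL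
  set y : Fin d → ℝ := fun i => x (σ i) with hy
  have hswap : ∀ i k, n k < n i → y k ≤ y i := by
    intro i k hnik
    have hne : i ≠ k := fun h => by subst h; exact lt_irrefl _ hnik
    have h1 := hx.2 o n b ((Equiv.swap i k).trans σ) hn
    have h2 := h0
    simp only [con, Equiv.trans_apply] at h1 h2
    have hsum : ∑ l, n l * x (σ (Equiv.swap i k l)) - ∑ l, n l * x (σ l) =
        (n i - n k) * (y k - y i) := by
      rw [← Finset.sum_sub_distrib]
      have hs : ∀ l ∈ (univ : Finset (Fin d)), l ∉ ({i, k} : Finset (Fin d)) →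
          n l * x (σ (Equiv.swap i k l)) - n l * x (σ l) = 0 := by
        intro l _ hl
        simp only [mem_insert, Finset.mem_singleton, not_or] at hl
        rw [Equiv.swap_apply_of_ne_of_ne hl.1 hl.2, sub_self]
      rw [← Finset.sum_subset (Finset.subset_univ _) hs, Finset.sum_pair hne,
        Equiv.swap_apply_left, Equiv.swap_apply_right]
      simp only [hy]
      ring
    by_contra hlt
    push Not at hlt
    have : 0 < (n i - n k) * (y k - y i) := mul_pos (by linarith) (by linarith)
    nlinarith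
  set key : Fin d → ℝ ×ₗ ℝ := fun i => toLex (-n i, -y i)
  set ρ := Tuple.sort key
  have hmono : Monotone (key ∘ ρ) := Tuple.monotone_sort key
  have hlex : ∀ i k, i ≤ k → n (ρ k) ≤ n (ρ i) ∧ y (ρ k) ≤ y (ρ i) := by
    intro i k hik
    have := hmono hik
    simp only [key, Function.comp_apply, Prod.Lex.toLex_le_toLex] at this
    rcases this with h | ⟨h, h'⟩
    · exact ⟨by linarith, hswap _ _ (by linarith)⟩
    · exact ⟨by linarith, by linarith⟩
  have hnρ : n ∘ ρ = n := by
    have := Tuple.unique_antitone (f := n) (σ := ρ) (τ := 1) (fun i k hik => (hlex i k hik).1)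
      (by simpa using hn.antitone)
    simpa using this
  have hnρ' : ∀ i, n (ρ i) = n i := fun i => congrFun hnρ i
  set τ : Equiv.Perm (Fin d) := ρ.trans σ
  have hτ : Antitone fun i => x (τ i) := fun i k hik => (hlex i k hik).2
  have hlin : ∀ z : Fin d → ℝ, ∑ i, n i * z (τ i) = ∑ i, n i * z (σ i) := fun z =>
    calc ∑ i, n i * z (τ i) = ∑ i, n (ρ i) * z (σ (ρ i)) := by simp [τ, hnρ']
      _ = ∑ i, n i * z (σ i) := Equiv.sum_comp ρ (fun i => n i * z (σ i))
  have h0' : con V L o n b τ x = 0 := by
    simp only [con, hlin x]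
    exact h0
  have hnear := near hR0 hR hL hx hn h0' hτ
  have hE := inv_scales V o b d le_rfl
  simp only [Nat.sub_self, Rt] at hE
  set u : Fin d → ℤ := v ∘ τ
  have hu : u ∈ base V := by simp [base, u, hV v hv τ]
  have hsumu : dot u n = ∑ q, (v q : ℝ) * n (σ.symm q) := by
    have h1 := hlin fun q => (v q : ℝ)
    rw [← Equiv.sum_comp σ (fun q => (v q : ℝ) * n (σ.symm q))]
    simp only [Equiv.symm_apply_apply]
    simp only [dot, u, Function.comp_apply]
    simp_rw [mul_comm ((v _ : ℤ) : ℝ)]
    exact h1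
  have hdotξ : dot u (fun i => Real.log (x (τ i)) / L) = (∑ q, (v q : ℝ) * Real.log (x q)) / L := by
    rw [← Equiv.sum_comp τ (fun q => (v q : ℝ) * Real.log (x q)), Finset.sum_div]
    simp only [dot, u, Function.comp_apply]
    exact Finset.sum_congr rfl fun i _ => by ring
  have hclose := dot_sub_le (V := V) hu (ξ := fun i => Real.log (x (τ i)) / L)
    (by linarith [hE.1]) hnear
  have hgap := gap d le_rfl hn u (by simpa [Dr] using hu) fun i hi => absurd i.2 (by omega)
  rw [hdotξ, hsumu] at hclose
  rw [hsumu, abs_of_pos hpos] at hgap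
  rcases hgap with h | h
  · linarith
  have h1 : (1 : ℝ) * L < (∑ q, (v q : ℝ) * Real.log (x q)) / L * L := by
    refine mul_lt_mul_of_pos_right ?_ hL0
    have := one_le_bd V
    nlinarith [(abs_le.mp hclose).1]
  rwa [one_mul, div_mul_cancel₀ _ hL0.ne'] at h1

end

end Vale.Agent.P072
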