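import Mathlib

/-!
Mass-action systems on `ℝ^d`: definitions used in the statement of P072.
-/

namespace Vale.Agent.P072

/-- A reaction `y → y'` is the pair `(y, y')`. -/
abbrev Reaction (d : ℕ) := (Fin d → ℕ) × (Fin d → ℕ)

/-- Every reaction `y → y'` lies on a directed cycle: a path leads from `y'` back to `y`. -/
def WeaklyReversible {d : ℕ} (rxn : Finset (Reaction d)) : Prop :=
  ∀ r ∈ rxn, Relation.ReflTransGen (fun a b => (a, b) ∈ rxn) r.2 r.1

/-- The mass-action vector field `∑ k x^y (y' - y)`. -/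
def massAction {d : ℕ} (rxn : Finset (Reaction d)) (k : Reaction d → ℝ) (x : Fin d → ℝ) :
    Fin d → ℝ :=
  fun i => ∑ r ∈ rxn, k r * (∏ j, x j ^ r.1 j) * ((r.2 i : ℝ) - r.1 i)

/-- The stoichiometric subspace. -/
def stoich {d : ℕ} (rxn : Finset (Reaction d)) : Submodule ℝ (Fin d → ℝ) :=
  Submodule.span ℝ ((fun (r : Reaction d) (i : Fin d) => (r.2 i : ℝ) - r.1 i) '' (rxn : Set (Reaction d)))

/-- The positive stoichiometric class of `c`. -/
def posClass {d : ℕ} (rxn : Finset (Reaction d)) (c : Fin d → ℝ) : Set (Fin d → ℝ) :=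
  {x | (∀ i, 0 < x i) ∧ x - c ∈ stoich rxn}

end Vale.Agent.P072
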