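import Mathlib

/-!
A moving family of regions with strictly inward boundary gives permanence.
-/

namespace Vale.Agent.P072

open Set Filter Topology
open scoped NNReal

noncomputable section

lemma global_of_lipschitz {E : Type*} [NormedAddCommGroup E] [NormedSpace ℝ E] [CompleteSpace E]
    {F : E → E} {K C : ℝ≥0} (hK : LipschitzWith K F) (hC : ∀ p, ‖F p‖ ≤ C) (x₀ : E) :
    ∃ x : ℝ → E, x 0 = x₀ ∧ ∀ t, -1 < t → HasDerivAt x (F (x t)) t := by
  have hsol : ∀ k : ℕ, ∃ α : ℝ → E, α 0 = x₀ ∧ ∀ t ∈ Icc (-1 : ℝ) ((k : ℝ) + 1),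
      HasDerivWithinAt α (F (α t)) (Icc (-1 : ℝ) ((k : ℝ) + 1)) t := by
    intro k
    have h0 : (0 : ℝ) ∈ Icc (-1 : ℝ) ((k : ℝ) + 1) := ⟨by norm_num, by positivity⟩
    have pl : IsPicardLindelof (fun _ => F) ⟨0, h0⟩ x₀ (C * ((k : ℝ≥0) + 1)) 0 C K :=
      { lipschitzOnWith := fun t _ => hK.lipschitzOnWith
        continuousOn := fun x _ => continuousOn_const
        norm_le := fun t _ x _ => hC x
        mul_max_le := by
          push_cast
          simp }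
    exact pl.exists_eq_forall_mem_Icc_hasDerivWithinAt₀
  choose α hα0 hα using hsol
  have huniq : ∀ i j : ℕ, i ≤ j → EqOn (α i) (α j) (Icc (-1 : ℝ) ((i : ℝ) + 1)) := by
    intro i j hij
    have hsub : Icc (-1 : ℝ) ((i : ℝ) + 1) ⊆ Icc (-1 : ℝ) ((j : ℝ) + 1) :=
      Icc_subset_Icc le_rfl (by exact_mod_cast Nat.succ_le_succ hij)
    refine ODE_solution_unique_of_mem_Icc (v := fun _ => F) (s := fun _ => univ)
      (K := K) (fun t _ => hK.lipschitzOnWith) (t₀ := 0) ⟨by norm_num, by positivity⟩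
      (fun t ht => (hα i t ht).continuousWithinAt) (fun t ht => ?_) (fun _ _ => mem_univ _)
      (fun t ht => ((hα j t (hsub ht)).mono hsub).continuousWithinAt) (fun t ht => ?_)
      (fun _ _ => mem_univ _) ((hα0 i).trans (hα0 j).symm)
    · exact (hα i t (Ioo_subset_Icc_self ht)).hasDerivAt (Icc_mem_nhds ht.1 ht.2)
    · exact ((hα j t (hsub (Ioo_subset_Icc_self ht))).mono hsub).hasDerivAt (Icc_mem_nhds ht.1 ht.2)
  refine ⟨fun t => α ⌈max t 0⌉₊ t, by simp [hα0], fun t ht => ?_⟩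
  obtain ⟨k, hk⟩ := exists_nat_gt (max t 0 + 1)
  have hmem : ∀ u, -1 ≤ u → u ∈ Icc (-1 : ℝ) ((⌈max u 0⌉₊ : ℝ) + 1) := fun u hu =>
    ⟨hu, by linarith [le_max_left u 0, Nat.le_ceil (max u 0)]⟩
  have heq : ∀ u, -1 ≤ u → u ≤ max t 0 + 1 → α ⌈max u 0⌉₊ u = α k u := by
    intro u hu1 hu2
    refine huniq _ _ (Nat.ceil_le.mpr ?_) (hmem u hu1)
    have := le_max_right t 0
    exact max_le (by linarith) (by linarith)
  have hd : HasDerivAt (α k) (F (α k t)) t := by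
    refine (hα k t ⟨ht.le, ?_⟩).hasDerivAt (Icc_mem_nhds ht ?_) <;>
      linarith [le_max_left t 0]
  have hev : (fun u => α ⌈max u 0⌉₊ u) =ᶠ[𝓝 t] α k := by
    filter_upwards [Icc_mem_nhds ht (by linarith [le_max_left t 0] : t < max t 0 + 1)] with u hu
    exact heq u hu.1 hu.2
  have he := hev.eq_of_nhds
  simp only at he ⊢
  rw [he]
  exact hd.congr_of_eventuallyEq hev

lemma eventually_lt_right {g : ℝ → ℝ} {g' t : ℝ} (h : HasDerivAt g g' t) (hg : g' < 0) :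
    ∀ᶠ u in 𝓝[>] t, g u < g t := by
  have h2 := (hasDerivWithinAt_iff_tendsto_slope' (notMem_Ioi.mpr le_rfl)).mp
    (h.hasDerivWithinAt (s := Ioi t))
  filter_upwards [h2.eventually_lt_const hg, self_mem_nhdsWithin] with u hu (htu : t < u)
  rw [slope_def_field, div_lt_iff₀ (sub_pos.mpr htu)] at hu
  linarith

lemma eventually_nonpos {g g' : ℝ → ℝ} {t₀ δ : ℝ} (hg : ∀ t, t₀ ≤ t → HasDerivAt g (g' t) t)
    (hδ : 0 < δ) (hb : ∀ t, t₀ ≤ t → 0 ≤ g t → g' t ≤ -δ) : ∀ᶠ t in atTop, g t ≤ 0 := by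
  obtain ⟨T, hT, hgT⟩ : ∃ T, t₀ ≤ T ∧ g T ≤ 0 := by
    by_contra hc
    push Not at hc
    set T := t₀ + (g t₀ / δ + 1) with hTdef
    have h0 := hc t₀ le_rfl
    have hT : t₀ ≤ T := by
      have : 0 < g t₀ / δ := div_pos h0 hδ
      linarith
    have hanti : AntitoneOn (fun t => g t + δ * t) (Icc t₀ T) := by
      refine antitoneOn_of_hasDerivWithinAt_nonpos (convex_Icc _ _)
        (fun t ht => (((hg t ht.1).continuousAt).add (by fun_prop)).continuousWithinAt)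
        (f' := fun t => g' t + δ) (fun t ht => ?_) (fun t ht => ?_)
      · rw [interior_Icc] at ht
        exact ((hg t ht.1.le).add (by simpa using (hasDerivAt_id t).const_mul δ)).hasDerivWithinAt
      · rw [interior_Icc] at ht
        linarith [hb t ht.1.le (hc t ht.1.le).le]
    have h := hanti ⟨le_rfl, hT⟩ ⟨hT, le_rfl⟩ hT
    simp only [hTdef] at h
    have := hc T hT
    rw [hTdef] at this
    have : g t₀ / δ * δ = g t₀ := div_mul_cancel₀ _ hδ.ne'
    nlinarith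
  filter_upwards [eventually_ge_atTop T] with t ht
  refine le_of_forall_pos_le_add fun ε hε => ?_
  have h := image_le_of_deriv_right_lt_deriv_boundary (a := T) (b := t)
    (fun s hs => (hg s (hT.trans hs.1)).continuousAt.continuousWithinAt)
    (fun s hs => (hg s (hT.trans hs.1)).hasDerivWithinAt)
    (B := fun _ => ε) (B' := fun _ => 0) (by linarith) (fun s => hasDerivAt_const s ε)
    (fun s hs he => lt_of_le_of_lt (hb s (hT.trans hs.1) (by linarith)) (by linarith))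
    (show t ∈ Icc T t from ⟨ht, le_rfl⟩)
  linarith

variable {d : ℕ} {ι : Type*} [Finite ι]

/-- The region at parameter `L`. -/
def Reg (S : Submodule ℝ (Fin d → ℝ)) (c : Fin d → ℝ) (ℓ : ι → (Fin d → ℝ) →L[ℝ] ℝ)
    (h : ι → ℝ → ℝ) (L : ℝ) : Set (Fin d → ℝ) :=
  {x | x - c ∈ S ∧ (∀ i, 0 < x i) ∧ ∀ a, L * ℓ a x - h a L ≤ 0}

variable {S : Submodule ℝ (Fin d → ℝ)} {c : Fin d → ℝ} {ℓ : ι → (Fin d → ℝ) →L[ℝ] ℝ}
  {h : ι → ℝ → ℝ} {f : (Fin d → ℝ) → (Fin d → ℝ)} {lo hi : ℝ → ℝ} {L₀ : ℝ}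

lemma Reg_eq (hlo : ∀ L, L₀ ≤ L → 0 < lo L)
    (hbox : ∀ L, L₀ ≤ L → ∀ x ∈ Reg S c ℓ h L, ∀ i, x i ∈ Icc (lo L) (hi L))
    {L : ℝ} (hL : L₀ ≤ L) : Reg S c ℓ h L =
      (univ.pi fun _ => Icc (lo L) (hi L)) ∩ {x | x - c ∈ S ∧ ∀ a, L * ℓ a x - h a L ≤ 0} := by
  ext x
  refine ⟨fun hx => ⟨fun i _ => hbox L hL x hx i, hx.1, hx.2.2⟩, fun hx => ?_⟩
  exact ⟨hx.2.1, fun i => lt_of_lt_of_le (hlo L hL) (hx.1 i (mem_univ i)).1, hx.2.2⟩

lemma Reg_compact (hlo : ∀ L, L₀ ≤ L → 0 < lo L)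
    (hbox : ∀ L, L₀ ≤ L → ∀ x ∈ Reg S c ℓ h L, ∀ i, x i ∈ Icc (lo L) (hi L))
    {L : ℝ} (hL : L₀ ≤ L) : IsCompact (Reg S c ℓ h L) := by
  rw [Reg_eq hlo hbox hL]
  refine (isCompact_univ_pi fun _ => isCompact_Icc).inter_right ?_
  have h1 : IsClosed {x : Fin d → ℝ | x - c ∈ S} :=
    S.closed_of_finiteDimensional.preimage (continuous_id.sub continuous_const)
  have h2 : IsClosed (⋂ a, {x : Fin d → ℝ | L * ℓ a x - h a L ≤ 0}) :=
    isClosed_iInter fun a => isClosed_le (by fun_prop) continuous_const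
  convert h1.inter h2 using 1
  ext x
  simp

lemma exists_solution (hf : ContDiff ℝ 1 f) (hfS : ∀ x, f x ∈ S)
    (hlo : ∀ L, L₀ ≤ L → 0 < lo L)
    (hbox : ∀ L, L₀ ≤ L → ∀ x ∈ Reg S c ℓ h L, ∀ i, x i ∈ Icc (lo L) (hi L))
    (hstrict : ∀ L, L₀ ≤ L → ∀ x ∈ Reg S c ℓ h L, ∀ a, L * ℓ a x - h a L = 0 → L * ℓ a (f x) < 0)
    {L : ℝ} (hL : L₀ ≤ L) {x₀ : Fin d → ℝ} (hx₀ : x₀ ∈ Reg S c ℓ h L) :
    ∃ x : ℝ → Fin d → ℝ, x 0 = x₀ ∧
      ∀ t, 0 ≤ t → x t ∈ Reg S c ℓ h L ∧ HasDerivAt x (f (x t)) t := by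
  rcases isEmpty_or_nonempty (Fin d) with he | hne
  · refine ⟨fun _ => x₀, rfl, fun t _ => ⟨hx₀, ?_⟩⟩
    rw [show f x₀ = 0 from Subsingleton.elim _ _]
    exact hasDerivAt_const t x₀
  have hlh : lo L ≤ hi L := (hbox L hL x₀ hx₀ hne.some).1.trans (hbox L hL x₀ hx₀ hne.some).2
  set box : Set (Fin d → ℝ) := univ.pi fun _ => Icc (lo L) (hi L)
  set cl : (Fin d → ℝ) → Fin d → ℝ := fun x i => max (lo L) (min (x i) (hi L)) with hcl
  have hclmem : ∀ x, cl x ∈ box := fun x i _ =>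
    ⟨le_max_left _ _, max_le hlh (min_le_right _ _)⟩
  have hclip : LipschitzWith 1 cl := LipschitzWith.of_dist_le_mul fun x y => by
    rw [NNReal.coe_one, one_mul]
    refine (dist_pi_le_iff dist_nonneg).mpr fun i => le_trans ?_ (dist_le_pi_dist x y i)
    simpa using ((LipschitzWith.id.min_const (hi L)).const_max (lo L)).dist_le_mul (x i) (y i)
  have hcpt : IsCompact box := isCompact_univ_pi fun _ => isCompact_Icc
  obtain ⟨K, hK⟩ := hf.locallyLipschitz.locallyLipschitzOn.exists_lipschitzOnWith_of_compact hcpt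
  obtain ⟨C, hC⟩ := hcpt.exists_bound_of_continuousOn hf.continuous.continuousOn
  have hKF : LipschitzWith (K * 1) (f ∘ cl) := by
    rw [← lipschitzOnWith_univ]
    exact hK.comp hclip.lipschitzOnWith fun p _ => hclmem p
  obtain ⟨x, hx0, hx⟩ := global_of_lipschitz hKF (C := C.toNNReal)
    (fun p => (hC _ (hclmem p)).trans (le_max_left _ _)) x₀
  have hxc : ContinuousOn x (Ici 0) := fun t ht =>
    (hx t (by linarith [mem_Ici.mp ht])).continuousAt.continuousWithinAt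
  have hS : ∀ t, 0 ≤ t → x t - c ∈ S := by
    intro t ht
    by_contra hnot
    obtain ⟨φ, hφ, hφS⟩ := S.exists_dual_map_eq_bot_of_notMem hnot inferInstance
    have hker : ∀ v ∈ S, φ v = 0 := fun v hv => by
      simpa [hφS] using Submodule.mem_map_of_mem (f := φ) hv
    have hconst : φ (x t) = φ (x 0) := by
      refine constant_of_has_deriv_right_zero (f := fun s => φ (x s))
        (φ.continuous_of_finiteDimensional.comp_continuousOn (hxc.mono Icc_subset_Ici_self))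
        (fun s hs => ?_) t ⟨ht, le_rfl⟩
      have := φ.toContinuousLinearMap.hasFDerivAt.comp_hasDerivAt s (hx s (by linarith [hs.1]))
      simp only [LinearMap.coe_toContinuousLinearMap', Function.comp_apply, hker _ (hfS _)] at this
      exact this.hasDerivWithinAt
    refine hφ ?_
    have h1 := hker _ hx₀.1
    rw [map_sub] at h1 ⊢
    rw [hconst, hx0]
    exact h1
  have hinv : ∀ t, 0 ≤ t → x t ∈ Reg S c ℓ h L := by
    intro T hT
    refine IsClosed.Icc_subset_of_forall_mem_nhdsWithin (s := {t | x t ∈ Reg S c ℓ h L}) ?_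
      (by simpa [hx0] using hx₀) ?_ (show T ∈ Icc 0 T from ⟨hT, le_rfl⟩)
    · rw [inter_comm]
      exact (hxc.mono Icc_subset_Ici_self).preimage_isClosed_of_isClosed isClosed_Icc
        (Reg_compact hlo hbox hL).isClosed
    · rintro t ⟨ht, ht0, -⟩
      have hd : HasDerivAt x (f (x t)) t := by
        have := hx t (by linarith)
        rwa [Function.comp_apply, show cl (x t) = x t from funext fun i => by
          obtain ⟨a1, a2⟩ := hbox L hL _ ht i
          simp [hcl, min_eq_left a2, max_eq_right a1]] at this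
      have hcont := hd.continuousAt
      have e1 : ∀ᶠ u in 𝓝[>] t, ∀ i, 0 < x u i := eventually_all.mpr fun i =>
        nhdsWithin_le_nhds (((continuous_apply i).continuousAt.comp hcont).eventually
          (lt_mem_nhds (ht.2.1 i)))
      have e2 : ∀ᶠ u in 𝓝[>] t, ∀ a, L * ℓ a (x u) - h a L ≤ 0 := eventually_all.mpr fun a => by
        have hda : HasDerivAt (fun u => L * ℓ a (x u) - h a L) (L * ℓ a (f (x t))) t :=
          (((ℓ a).hasFDerivAt.comp_hasDerivAt t hd).const_mul L).sub_const _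
        rcases (ht.2.2 a).eq_or_lt with heq | hlt
        · filter_upwards [eventually_lt_right hda (hstrict L hL _ ht a heq)] with u hu
          linarith
        · filter_upwards [nhdsWithin_le_nhds (hda.continuousAt.eventually (gt_mem_nhds hlt))]
            with u hu using le_of_lt hu
      filter_upwards [e1, e2, self_mem_nhdsWithin] with u h1 h2 (h3 : t < u)
      exact ⟨hS u (ht0.trans h3.le), h1, h2⟩
  refine ⟨x, hx0, fun t ht => ⟨hinv t ht, ?_⟩⟩
  have := hx t (by linarith)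
  rwa [Function.comp_apply, show cl (x t) = x t from funext fun i => by
    obtain ⟨a1, a2⟩ := hbox L hL _ (hinv t ht) i
    simp [hcl, min_eq_left a2, max_eq_right a1]] at this

lemma step_exists (hf : ContDiff ℝ 1 f) (hh : ∀ a, Continuous (h a))
    (hlo : ∀ L, L₀ ≤ L → 0 < lo L) (hlom : Antitone lo) (him : MonotoneOn hi (Ici L₀))
    (hbox : ∀ L, L₀ ≤ L → ∀ x ∈ Reg S c ℓ h L, ∀ i, x i ∈ Icc (lo L) (hi L))
    (hstrict : ∀ L, L₀ ≤ L → ∀ x ∈ Reg S c ℓ h L, ∀ a, L * ℓ a x - h a L = 0 → L * ℓ a (f x) < 0)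
    (hL₀ : 0 < L₀) (L₁ : ℝ) :
    ∃ η > 0, ∀ L L', L₀ ≤ L' → L' ≤ L → L ≤ L₁ → L - L' ≤ η → ∀ x ∈ Reg S c ℓ h L, ∀ a,
      0 ≤ L' * ℓ a x - h a L' → L' * ℓ a (f x) ≤ -η := by
  suffices hmain : ∀ᶠ η in 𝓝[>] (0 : ℝ), ∀ a, ∀ L L', L₀ ≤ L' → L' ≤ L → L ≤ L₁ → L - L' ≤ η →
      ∀ x ∈ Reg S c ℓ h L, 0 ≤ L' * ℓ a x - h a L' → L' * ℓ a (f x) ≤ -η by
    obtain ⟨η, hη, hpos⟩ := (hmain.and self_mem_nhdsWithin).exists
    exact ⟨η, hpos, fun L L' h1 h2 h3 h4 x hx a h5 => hη a L L' h1 h2 h3 h4 x hx h5⟩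
  refine eventually_all.mpr fun a => ?_
  set W : Set ((Fin d → ℝ) × ℝ × ℝ) :=
    ((univ.pi fun _ => Icc (lo L₁) (hi L₁)) ×ˢ (Icc L₀ L₁ ×ˢ Icc L₀ L₁)) ∩
      {q | q.2.2 ≤ q.2.1 ∧ q.1 - c ∈ S ∧ (∀ b, q.2.1 * ℓ b q.1 - h b q.2.1 ≤ 0) ∧
        0 ≤ q.2.2 * ℓ a q.1 - h a q.2.2}
  have hW : IsCompact W := by
    refine ((isCompact_univ_pi fun _ => isCompact_Icc).prod
      (isCompact_Icc.prod isCompact_Icc)).inter_right ?_
    have h1 : IsClosed {q : (Fin d → ℝ) × ℝ × ℝ | q.2.2 ≤ q.2.1} :=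
      isClosed_le (continuous_snd.comp continuous_snd) (continuous_fst.comp continuous_snd)
    have h2 : IsClosed {q : (Fin d → ℝ) × ℝ × ℝ | q.1 - c ∈ S} :=
      S.closed_of_finiteDimensional.preimage (continuous_fst.sub continuous_const)
    have h3 : IsClosed (⋂ b, {q : (Fin d → ℝ) × ℝ × ℝ | q.2.1 * ℓ b q.1 - h b q.2.1 ≤ 0}) :=
      isClosed_iInter fun b => isClosed_le
        (((continuous_fst.comp continuous_snd).mul ((ℓ b).continuous.comp continuous_fst)).sub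
          ((hh b).comp (continuous_fst.comp continuous_snd))) continuous_const
    have h4 : IsClosed {q : (Fin d → ℝ) × ℝ × ℝ | 0 ≤ q.2.2 * ℓ a q.1 - h a q.2.2} :=
      isClosed_le continuous_const
        (((continuous_snd.comp continuous_snd).mul ((ℓ a).continuous.comp continuous_fst)).sub
          ((hh a).comp (continuous_snd.comp continuous_snd)))
    convert h1.inter (h2.inter (h3.inter h4)) using 1
    ext q
    simp
  set ψ : (Fin d → ℝ) × ℝ × ℝ → ℝ := fun q => max (q.2.1 - q.2.2) (-(q.2.2 * ℓ a (f q.1)))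
  have hψc : Continuous ψ := by
    have := hf.continuous
    fun_prop
  obtain ⟨μ, hμ, hmin⟩ := hW.exists_forall_le' (a := 0) hψc.continuousOn fun q hq => by
    obtain ⟨⟨hq1, hq2, hq3⟩, hle, hqS, hqg, hqa⟩ := hq
    rcases hle.eq_or_lt with heq | hlt
    · refine lt_max_of_lt_right ?_
      have hqL : L₀ ≤ q.2.2 := hq3.1
      have hpos : ∀ i, 0 < q.1 i := fun i =>
        lt_of_lt_of_le (hlo L₁ (hq2.1.trans hq2.2)) (hq1 i (mem_univ i)).1
      have hreg : q.1 ∈ Reg S c ℓ h q.2.2 := ⟨hqS, hpos, fun b => by rw [heq]; exact hqg b⟩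
      have := hstrict _ hqL _ hreg a (le_antisymm (hreg.2.2 a) hqa)
      linarith
    · exact lt_max_of_lt_left (sub_pos.mpr hlt)
  filter_upwards [Ioo_mem_nhdsGT hμ] with η hη L L' h1 h2 h3 h4 x hx h5
  have hL : L₀ ≤ L := h1.trans h2
  have hxW : (x, L, L') ∈ W := by
    refine ⟨⟨fun i _ => ?_, ⟨hL, h3⟩, ⟨h1, h2.trans h3⟩⟩, h2, hx.1, hx.2.2, h5⟩
    obtain ⟨a1, a2⟩ := hbox L hL x hx i
    exact ⟨(hlom h3).trans a1, a2.trans (him hL (hL.trans h3) h3)⟩
  rcases le_max_iff.mp (hmin _ hxW) with hm | hm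
  · simp only at hm; linarith [hη.2]
  · simp only at hm; linarith [hη.2]

lemma absorb (hf : ContDiff ℝ 1 f) (hh : ∀ a, Continuous (h a))
    (hlo : ∀ L, L₀ ≤ L → 0 < lo L) (hlom : Antitone lo) (him : MonotoneOn hi (Ici L₀))
    (hbox : ∀ L, L₀ ≤ L → ∀ x ∈ Reg S c ℓ h L, ∀ i, x i ∈ Icc (lo L) (hi L))
    (hstrict : ∀ L, L₀ ≤ L → ∀ x ∈ Reg S c ℓ h L, ∀ a, L * ℓ a x - h a L = 0 → L * ℓ a (f x) < 0)
    (hL₀ : 0 < L₀) {L₁ : ℝ} (hL₁ : L₀ ≤ L₁) {x : ℝ → Fin d → ℝ}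
    (hx : ∀ t, 0 ≤ t → x t ∈ Reg S c ℓ h L₁ ∧ HasDerivAt x (f (x t)) t) :
    ∀ᶠ t in atTop, x t ∈ Reg S c ℓ h L₀ := by
  obtain ⟨η, hη, hstep⟩ := step_exists hf hh hlo hlom him hbox hstrict hL₀ L₁
  have hiter : ∀ k : ℕ, ∀ᶠ t in atTop, x t ∈ Reg S c ℓ h (max L₀ (L₁ - k * η)) := by
    intro k
    induction k with
    | zero =>
      filter_upwards [eventually_ge_atTop 0] with t ht
      simpa [max_eq_right hL₁] using (hx t ht).1
    | succ k ih =>
      obtain ⟨t₁, ht₁⟩ := eventually_atTop.mp ih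
      set t₀ := max t₁ 0
      set L := max L₀ (L₁ - k * η)
      set L' := max L₀ (L₁ - ((k + 1 : ℕ) : ℝ) * η) with hL'def
      have hL' : L₀ ≤ L' := le_max_left _ _
      have hle : L' ≤ L := max_le_max le_rfl (by push_cast; linarith)
      have hL1 : L ≤ L₁ := max_le hL₁ (by nlinarith [(k.cast_nonneg : (0:ℝ) ≤ k)])
      have hdiff : L - L' ≤ η := by
        rw [sub_le_iff_le_add]
        refine max_le (by linarith) ?_
        have : L₁ - ((k + 1 : ℕ) : ℝ) * η ≤ L' := le_max_right _ _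
        push_cast at this
        linarith
      have hev : ∀ a, ∀ᶠ t in atTop, L' * ℓ a (x t) - h a L' ≤ 0 := fun a =>
        eventually_nonpos (t₀ := t₀) (δ := η)
          (fun t ht => (((ℓ a).hasFDerivAt.comp_hasDerivAt t
            (hx t ((le_max_right _ _).trans ht)).2).const_mul L').sub_const _) hη
          fun t ht hge => hstep L L' hL' hle hL1 hdiff _ (ht₁ t ((le_max_left _ _).trans ht)) a hge
      filter_upwards [eventually_all.mpr hev, eventually_ge_atTop 0] with t h1 h2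
      exact ⟨(hx t h2).1.1, (hx t h2).1.2.1, h1⟩
  obtain ⟨N, hN⟩ := exists_nat_ge ((L₁ - L₀) / η)
  rw [div_le_iff₀ hη] at hN
  simpa [max_eq_left (show L₁ - N * η ≤ L₀ by linarith)] using hiter N

lemma unique_solution (hf : ContDiff ℝ 1 f) {x y : ℝ → Fin d → ℝ} {T : ℝ} (h0 : y 0 = x 0)
    (hx : ∀ t ∈ Icc 0 T, HasDerivWithinAt x (f (x t)) (Icc 0 T) t)
    (hy : ∀ t ∈ Icc 0 T, HasDerivWithinAt y (f (y t)) (Icc 0 T) t) : EqOn y x (Icc 0 T) := by
  have hxc : ContinuousOn x (Icc 0 T) := fun t ht => (hx t ht).continuousWithinAt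
  have hyc : ContinuousOn y (Icc 0 T) := fun t ht => (hy t ht).continuousWithinAt
  set W := x '' Icc 0 T ∪ y '' Icc 0 T
  have hW : IsCompact W :=
    (isCompact_Icc.image_of_continuousOn hxc).union (isCompact_Icc.image_of_continuousOn hyc)
  obtain ⟨K, hK⟩ := hf.locallyLipschitz.locallyLipschitzOn.exists_lipschitzOnWith_of_compact hW
  exact ODE_solution_unique_of_mem_Icc_right (v := fun _ => f) (s := fun _ => W) (K := K)
    (fun t _ => hK) hyc
    (fun t ht => (hy t (Ico_subset_Icc_self ht)).mono_of_mem_nhdsWithin (Icc_mem_nhdsGE_of_mem ht))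
    (fun t ht => Or.inr (mem_image_of_mem y (Ico_subset_Icc_self ht))) hxc
    (fun t ht => (hx t (Ico_subset_Icc_self ht)).mono_of_mem_nhdsWithin (Icc_mem_nhdsGE_of_mem ht))
    (fun t ht => Or.inl (mem_image_of_mem x (Ico_subset_Icc_self ht))) h0

end

end Vale.Agent.P072
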