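import Mathlib
import Vale.Agent.P072.Defs

/-!
The sign of a linear functional along a weakly reversible mass-action field, and eventual
nonvanishing of exponential sums.
-/

namespace Vale.Agent.P072

open Finset MeasureTheory Filter Topology

noncomputable section

variable {d : ℕ}

lemma cross {α : Type*} {R : α → α → Prop} {q : α → ℝ} {a z : α}
    (h : Relation.ReflTransGen R a z) {s : ℝ} (ha : s ≤ q a) (hz : q z < s) :
    ∃ b c, R b c ∧ q c < s ∧ s ≤ q b := by
  induction h with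
  | refl => linarith
  | @tail b c _ hbc ih =>
    rcases lt_or_ge (q b) s with hb | hb
    · exact ih hb
    · exact ⟨b, c, hbc, hz, hb⟩

lemma monomial_eq_exp {x : Fin d → ℝ} (hx : ∀ i, 0 < x i) (y : Fin d → ℕ) :
    ∏ i, x i ^ y i = Real.exp (∑ i, (y i : ℝ) * Real.log (x i)) := by
  rw [Real.exp_sum]
  refine Finset.prod_congr rfl fun i _ => ?_
  rw [Real.exp_nat_mul, Real.exp_log (hx i)]

lemma pairing_eq (rxn : Finset (Reaction d)) (k : Reaction d → ℝ) (x p : Fin d → ℝ) :
    ∑ i, p i * massAction rxn k x i = ∑ r ∈ rxn, k r * (∏ j, x j ^ r.1 j) *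
      ((∑ i, p i * (r.2 i : ℝ)) - ∑ i, p i * (r.1 i : ℝ)) := by
  simp only [massAction, Finset.mul_sum]
  rw [Finset.sum_comm]
  refine Finset.sum_congr rfl fun r _ => ?_
  rw [← Finset.sum_sub_distrib, Finset.mul_sum]
  exact Finset.sum_congr rfl fun i _ => by ring

/-- If the monomials are strongly ordered along `p`, then `p` strictly decreases unless it is
orthogonal to all reactions. -/
lemma flux {rxn : Finset (Reaction d)} (hwr : WeaklyReversible rxn) {k : Reaction d → ℝ}
    (hk : ∀ r ∈ rxn, 0 < k r) {x p : Fin d → ℝ} (hx : ∀ i, 0 < x i) {L : ℝ}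
    (hL : ∀ r ∈ rxn, ∀ b ∈ rxn, ((rxn.card : ℝ) + 1) * k r ≤ k b * Real.exp L)
    (hdir : ∀ r ∈ rxn, ∀ b ∈ rxn, (∑ i, p i * (r.1 i : ℝ)) < ∑ i, p i * (b.1 i : ℝ) →
      (∑ i, (r.1 i : ℝ) * Real.log (x i)) + L < ∑ i, (b.1 i : ℝ) * Real.log (x i)) :
    ∑ i, p i * massAction rxn k x i < 0 ∨
      ∀ r ∈ rxn, ∑ i, p i * (r.1 i : ℝ) = ∑ i, p i * (r.2 i : ℝ) := by
  set q : (Fin d → ℕ) → ℝ := fun y => ∑ i, p i * (y i : ℝ) with hq
  set T : Reaction d → ℝ := fun r => k r * ∏ j, x j ^ r.1 j with hT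
  have hT0 : ∀ r ∈ rxn, 0 < T r := fun r hr =>
    mul_pos (hk r hr) (Finset.prod_pos fun j _ => pow_pos (hx j) _)
  set neg := ∑ b ∈ rxn, T b * max (q b.1 - q b.2) 0
  have hneg : 0 ≤ neg := Finset.sum_nonneg fun b hb => mul_nonneg (hT0 b hb).le (le_max_right _ _)
  have hM : (0 : ℝ) < (rxn.card : ℝ) + 1 := by positivity
  have hup : ∀ r ∈ rxn, T r * max (q r.2 - q r.1) 0 ≤ neg / ((rxn.card : ℝ) + 1) := by
    intro r hr
    rw [le_div_iff₀ hM]
    rcases le_or_gt (q r.2) (q r.1) with hle | hlt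
    · rw [max_eq_right (by linarith), mul_zero, zero_mul]
      exact hneg
    set F := rxn.filter fun b => q r.1 < q b.1
    have hcov : Set.Ioc (q r.1) (q r.2) ⊆ ⋃ b ∈ F, Set.Ioc (q b.2) (q b.1) := by
      intro s hs
      obtain ⟨b, c, hbc, h1, h2⟩ := cross (q := q) (hwr r hr) hs.2 hs.1
      exact Set.mem_iUnion₂.mpr ⟨(b, c), mem_filter.mpr ⟨hbc, hs.1.trans_le h2⟩, h1, h2⟩
    have hlen : q r.2 - q r.1 ≤ ∑ b ∈ F, max (q b.1 - q b.2) 0 := by
      have h1 : volume (Set.Ioc (q r.1) (q r.2)) ≤ ∑ b ∈ F, volume (Set.Ioc (q b.2) (q b.1)) :=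
        (measure_mono hcov).trans (measure_biUnion_finset_le _ _)
      have h2 : ∀ b : Reaction d,
          volume (Set.Ioc (q b.2) (q b.1)) = ENNReal.ofReal (max (q b.1 - q b.2) 0) := fun b => by
        rw [Real.volume_Ioc]
        rcases le_total (q b.1 - q b.2) 0 with h | h
        · rw [max_eq_right h, ENNReal.ofReal_of_nonpos h, ENNReal.ofReal_zero]
        · rw [max_eq_left h]
      simp only [h2, Real.volume_Ioc] at h1
      rw [← ENNReal.ofReal_sum_of_nonneg fun b _ => le_max_right _ _] at h1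
      exact (ENNReal.ofReal_le_ofReal_iff (Finset.sum_nonneg fun b _ => le_max_right _ _)).mp h1
    have hdom : ∀ b ∈ F, ((rxn.card : ℝ) + 1) * T r ≤ T b := by
      intro b hb
      obtain ⟨hb, hqb⟩ := mem_filter.mp hb
      simp only [hT, monomial_eq_exp hx]
      have h := (hdir r hr b hb hqb).le
      calc ((rxn.card : ℝ) + 1) * (k r * Real.exp _) = (((rxn.card : ℝ) + 1) * k r) * Real.exp _ := by
            ring
        _ ≤ (k b * Real.exp L) * Real.exp _ :=
            mul_le_mul_of_nonneg_right (hL r hr b hb) (Real.exp_pos _).le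
        _ = k b * Real.exp ((∑ i, (r.1 i : ℝ) * Real.log (x i)) + L) := by rw [Real.exp_add]; ring
        _ ≤ _ := mul_le_mul_of_nonneg_left (Real.exp_le_exp.mpr h) (hk b hb).le
    rw [max_eq_left (by linarith)]
    calc T r * (q r.2 - q r.1) * ((rxn.card : ℝ) + 1)
        ≤ T r * (∑ b ∈ F, max (q b.1 - q b.2) 0) * ((rxn.card : ℝ) + 1) :=
          mul_le_mul_of_nonneg_right (mul_le_mul_of_nonneg_left hlen (hT0 r hr).le) hM.le
      _ = ∑ b ∈ F, (((rxn.card : ℝ) + 1) * T r) * max (q b.1 - q b.2) 0 := by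
          rw [Finset.mul_sum, Finset.sum_mul]
          exact Finset.sum_congr rfl fun b _ => by ring
      _ ≤ ∑ b ∈ F, T b * max (q b.1 - q b.2) 0 :=
          Finset.sum_le_sum fun b hb => mul_le_mul_of_nonneg_right (hdom b hb) (le_max_right _ _)
      _ ≤ neg := Finset.sum_le_sum_of_subset_of_nonneg (Finset.filter_subset _ _)
          fun b hb _ => mul_nonneg (hT0 b hb).le (le_max_right _ _)
  set pos := ∑ r ∈ rxn, T r * max (q r.2 - q r.1) 0
  have hpos : pos ≤ (rxn.card : ℝ) * (neg / ((rxn.card : ℝ) + 1)) := by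
    refine (Finset.sum_le_card_nsmul _ _ _ hup).trans_eq ?_
    rw [nsmul_eq_mul]
  have htot : ∑ i, p i * massAction rxn k x i = pos - neg := by
    rw [pairing_eq, ← Finset.sum_sub_distrib]
    refine Finset.sum_congr rfl fun r _ => ?_
    rw [← mul_sub]
    congr 1
    simp only [hq]
    rcases le_total (q r.2) (q r.1) with h | h <;> simp only [hq] at h
    · rw [max_eq_right (by linarith), max_eq_left (by linarith)]; ring
    · rw [max_eq_left (by linarith), max_eq_right (by linarith)]; ring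
  rcases hneg.eq_or_lt with h0 | hlt
  · refine Or.inr fun r hr => ?_
    have hpos0 : pos ≤ 0 := hpos.trans_eq (by rw [← h0]; simp)
    have hp0 : ∀ r ∈ rxn, T r * max (q r.2 - q r.1) 0 ≤ 0 := fun r hr =>
      (Finset.single_le_sum (f := fun r => T r * max (q r.2 - q r.1) 0)
        (fun b hb => mul_nonneg (hT0 b hb).le (le_max_right _ _)) hr).trans hpos0
    have hn0 : T r * max (q r.1 - q r.2) 0 ≤ 0 :=
      (Finset.single_le_sum (f := fun b => T b * max (q b.1 - q b.2) 0)
        (fun b hb => mul_nonneg (hT0 b hb).le (le_max_right _ _)) hr).trans h0.ge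
    refine le_antisymm ?_ ?_
    · by_contra hc
      push Not at hc
      have : 0 < T r * max (q r.1 - q r.2) 0 := mul_pos (hT0 r hr) (lt_max_of_lt_left (by simp [hq]; linarith))
      linarith
    · by_contra hc
      push Not at hc
      have : 0 < T r * max (q r.2 - q r.1) 0 := mul_pos (hT0 r hr) (lt_max_of_lt_left (by simp [hq]; linarith))
      linarith [hp0 r hr]
  · refine Or.inl ?_
    rw [htot]
    have : (rxn.card : ℝ) * (neg / ((rxn.card : ℝ) + 1)) < neg := by
      rw [mul_div_assoc', div_lt_iff₀ hM]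
      nlinarith
    linarith

/-- An exponential sum with nonzero coefficients does not cancel a linear term for long. -/
lemma eventually_ne_zero {ι : Type*} (F : Finset ι) (θ : ι → ℝ) (A κ γ : ℝ)
    (hκ : ∀ N : ℕ, (N : ℝ) + κ ≠ 0) :
    ∀ᶠ L in atTop, L * A - ∑ i ∈ F, Real.exp (L * θ i) - κ * Real.exp (L * γ) ≠ 0 := by
  classical
  set M := insert γ (F.image θ) with hM
  set C : ℝ → ℝ := fun μ => ((F.filter fun i => θ i = μ).card : ℝ) + if μ = γ then κ else 0 with hC
  have hC0 : ∀ μ ∈ M, C μ ≠ 0 := by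
    intro μ hμ
    by_cases h : μ = γ
    · simp only [hC, if_pos h]; exact hκ _
    · simp only [hC, if_neg h, add_zero, Nat.cast_ne_zero]
      rw [hM, mem_insert] at hμ
      obtain ⟨i, hi, rfl⟩ := mem_image.mp (hμ.resolve_left h)
      exact Finset.card_ne_zero.mpr ⟨i, mem_filter.mpr ⟨hi, rfl⟩⟩
  have hrew : ∀ L : ℝ, L * A - ∑ i ∈ F, Real.exp (L * θ i) - κ * Real.exp (L * γ) =
      L * A - ∑ μ ∈ M, C μ * Real.exp (L * μ) := by
    intro L
    simp only [hC, add_mul, Finset.sum_add_distrib, ite_mul, zero_mul]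
    rw [Finset.sum_ite_eq' M γ, if_pos (Finset.mem_insert_self γ _),
      ← Finset.sum_fiberwise_of_maps_to (g := θ) (t := M)
        (fun i hi => Finset.mem_insert_of_mem (mem_image_of_mem θ hi))]
    rw [sub_sub]
    congr 2
    refine Finset.sum_congr rfl fun μ _ => ?_
    rw [Finset.sum_congr rfl fun i hi => by rw [(mem_filter.mp hi).2], Finset.sum_const, nsmul_eq_mul]
  simp only [hrew]
  set μ₀ := M.max' (insert_nonempty _ _) with hμ₀
  have hμM : μ₀ ∈ M := Finset.max'_mem _ _
  have hexp : ∀ c : ℝ, c < 0 → Tendsto (fun L : ℝ => Real.exp (L * c)) atTop (𝓝 0) := fun c hc =>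
    Real.tendsto_exp_atBot.comp (tendsto_id.atTop_mul_const_of_neg hc)
  by_cases hcase : 0 < μ₀ ∨ A = 0
  · have hlin : Tendsto (fun L : ℝ => L * A * Real.exp (L * -μ₀)) atTop (𝓝 0) := by
      rcases hcase with h | h
      · have := (tendsto_rpow_mul_exp_neg_mul_atTop_nhds_zero 1 μ₀ h).const_mul A
        simp only [Real.rpow_one, mul_zero] at this
        refine this.congr fun L => ?_
        ring_nf
      · simp [h]
    have hsum : Tendsto (fun L : ℝ => ∑ μ ∈ M, C μ * Real.exp (L * (μ - μ₀))) atTop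
        (𝓝 (∑ μ ∈ M, if μ = μ₀ then C μ else 0)) := by
      refine tendsto_finset_sum _ fun μ hμ => ?_
      by_cases h : μ = μ₀
      · simp [h]
      · simpa [h] using
          (hexp (μ - μ₀) (by linarith [lt_of_le_of_ne (Finset.le_max' M μ hμ) h])).const_mul (C μ)
    rw [Finset.sum_ite_eq' M μ₀, if_pos hμM] at hsum
    filter_upwards [(hlin.sub hsum).eventually_ne (show 0 - C μ₀ ≠ 0 by simpa using hC0 _ hμM)] with L hL h0
    refine hL ?_
    have h1 : ∀ μ, Real.exp (L * (μ - μ₀)) = Real.exp (L * μ) * Real.exp (L * -μ₀) := fun μ => by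
      rw [← Real.exp_add]; ring_nf
    simp only [h1, ← mul_assoc, ← Finset.sum_mul]
    rw [← sub_mul, h0, zero_mul]
  · push Not at hcase
    obtain ⟨hμ0, hA⟩ := hcase
    have hsum : Tendsto (fun L : ℝ => ∑ μ ∈ M, C μ * Real.exp (L * μ) * L⁻¹) atTop (𝓝 0) := by
      rw [← Finset.sum_const_zero (s := M)]
      refine tendsto_finset_sum _ fun μ hμ => ?_
      rcases ((Finset.le_max' M μ hμ).trans hμ0).eq_or_lt with h | h
      · simpa [h] using tendsto_inv_atTop_zero.const_mul (C μ)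
      · simpa using ((hexp μ h).const_mul (C μ)).mul tendsto_inv_atTop_zero
    filter_upwards [((tendsto_const_nhds (x := A)).sub hsum).eventually_ne (show A - 0 ≠ 0 by simpa using hA),
      eventually_gt_atTop 0] with L hL hL0 h0
    refine hL ?_
    rw [← Finset.sum_mul, ← sub_eq_zero.mp h0]
    field_simp
    ring

end

end Vale.Agent.P072
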