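import Mathlib
import Vale.Agent.P072.Defs
import Vale.Agent.P072.Barrier
import Vale.Agent.P072.Flux
import Vale.Agent.P072.Dynamics

/-!
Assembly: permanence of weakly reversible mass-action systems.
-/

namespace Vale.Agent.P072

open Finset Filter Topology

noncomputable section

variable {d : ℕ}

/-- All permuted differences of source complexes. -/
def vecs (rxn : Finset (Reaction d)) : Finset (Fin d → ℤ) :=
  (univ : Finset (Equiv.Perm (Fin d))).biUnion fun τ =>
    (rxn ×ˢ rxn).image fun q => (fun i => (q.2.1 i : ℤ) - q.1.1 i) ∘ τ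

lemma vecs_perm (rxn : Finset (Reaction d)) :
    ∀ v ∈ vecs rxn, ∀ τ : Equiv.Perm (Fin d), v ∘ τ ∈ vecs rxn := by
  intro v hv τ'
  simp only [vecs, mem_biUnion, mem_image] at hv ⊢
  obtain ⟨τ, -, q, hq, rfl⟩ := hv
  exact ⟨τ'.trans τ, mem_univ _, q, hq, rfl⟩

lemma vecs_mem {rxn : Finset (Reaction d)} {r b : Reaction d} (hr : r ∈ rxn) (hb : b ∈ rxn) :
    (fun i => (b.1 i : ℤ) - r.1 i) ∈ vecs rxn := by
  simp only [vecs, mem_biUnion, mem_image]
  exact ⟨1, mem_univ _, (r, b), mem_product.mpr ⟨hr, hb⟩, rfl⟩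

lemma massAction_mem (rxn : Finset (Reaction d)) (k : Reaction d → ℝ) (x : Fin d → ℝ) :
    massAction rxn k x ∈ stoich rxn := by
  have h : massAction rxn k x =
      ∑ r ∈ rxn, (k r * ∏ j, x j ^ r.1 j) • fun i => (r.2 i : ℝ) - r.1 i := by
    funext i
    simp [massAction, Finset.sum_apply]
  rw [h]
  exact Submodule.sum_mem _ fun r hr =>
    Submodule.smul_mem _ _ (Submodule.subset_span (Set.mem_image_of_mem _ hr))

lemma massAction_contDiff (rxn : Finset (Reaction d)) (k : Reaction d → ℝ) :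
    ContDiff ℝ 1 (massAction rxn k) := by
  refine contDiff_pi.mpr fun i => ContDiff.sum fun r _ => ?_
  refine (contDiff_const.mul ?_).mul contDiff_const
  fun_prop

/-- The index type of the constraints. -/
abbrev Idx (V : Finset (Fin d → ℤ)) : Type :=
  {a : Option (Fin d) × (Fin d → ℝ) × (Fin d → Bool) × Equiv.Perm (Fin d) //
    Valid V a.1 a.2.1 a.2.2.1}

instance (V : Finset (Fin d → ℤ)) : Finite (Idx V) := by
  refine Set.Finite.to_subtype (Set.Finite.subset
    ((Set.finite_univ.prod ((Set.finite_iUnion fun q : Option (Fin d) × (Fin d → Bool) =>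
      valid_finite V q.1 q.2).prod (Set.finite_univ.prod Set.finite_univ)))) ?_)
  rintro ⟨o, n, b, σ⟩ h
  exact ⟨Set.mem_univ _, Set.mem_iUnion.mpr ⟨(o, b), h⟩, Set.mem_univ _, Set.mem_univ _⟩

/-- The linear part of a constraint. -/
def lin (V : Finset (Fin d → ℤ)) (a : Idx V) : (Fin d → ℝ) →L[ℝ] ℝ :=
  ∑ i, a.1.2.1 i • ContinuousLinearMap.proj (R := ℝ) (φ := fun _ : Fin d => ℝ) (a.1.2.2.2 i)

/-- The constant part of a constraint. -/
def cst (V : Finset (Fin d → ℤ)) (a : Idx V) (L : ℝ) : ℝ :=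
  (∑ i ∈ univ.filter (fun i : Fin d => low a.1.1 ≤ i),
      Real.exp (L * theta V a.1.1 a.1.2.1 a.1.2.2.1 i))
    + coef a.1.1 * Real.exp (L * expo V a.1.1)

lemma lin_apply (V : Finset (Fin d → ℤ)) (a : Idx V) (x : Fin d → ℝ) :
    lin V a x = ∑ i, a.1.2.1 i * x (a.1.2.2.2 i) := by
  simp [lin]

lemma lin_apply' (V : Finset (Fin d → ℤ)) (a : Idx V) (x : Fin d → ℝ) :
    lin V a x = ∑ q, a.1.2.1 (a.1.2.2.2.symm q) * x q := by
  rw [lin_apply, ← Equiv.sum_comp a.1.2.2.2 (fun q => a.1.2.1 (a.1.2.2.2.symm q) * x q)]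
  simp

lemma con_eq (V : Finset (Fin d → ℤ)) (a : Idx V) (L : ℝ) (x : Fin d → ℝ) :
    con V L a.1.1 a.1.2.1 a.1.2.2.1 a.1.2.2.2 x = L * lin V a x - cst V a L := by
  rw [lin_apply, con, cst]
  ring

lemma Reg_eq_Om (V : Finset (Fin d → ℤ)) (S : Submodule ℝ (Fin d → ℝ)) (c : Fin d → ℝ) (L : ℝ)
    {x : Fin d → ℝ} :
    x ∈ Reg S c (lin V) (cst V) L ↔ x - c ∈ S ∧ x ∈ Om V L := by
  simp only [Reg, Om, Set.mem_setOf_eq]
  refine ⟨fun h => ⟨h.1, h.2.1, fun o n b σ hv => ?_⟩, fun h => ⟨h.1, h.2.1, fun a => ?_⟩⟩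
  · exact (con_eq V ⟨(o, n, b, σ), hv⟩ L x).trans_le (h.2.2 _)
  · rw [← con_eq]
    exact h.2.2 _ _ _ _ a.2

lemma coef_ne (o : Option (Fin d)) (N : ℕ) : (N : ℝ) + coef o ≠ 0 := by
  cases o with
  | none => simp only [coef]; positivity
  | some m =>
    simp only [coef]
    intro h
    have h2 : (2 * N : ℕ) = 1 := by
      have : ((2 * N : ℕ) : ℝ) = 1 := by push_cast; linarith
      exact_mod_cast this
    omega

lemma exhaust (V : Finset (Fin d → ℤ)) {x : Fin d → ℝ} (hx : ∀ i, 0 < x i) (a : Idx V) :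
    ∀ᶠ L in atTop, L * lin V a x - cst V a L ≤ 0 := by
  obtain ⟨⟨o, n, b, σ⟩, hv⟩ := a
  change Valid V o n b at hv
  simp only [lin_apply, cst]
  set A := ∑ i, n i * x (σ i) with hA
  set F := univ.filter (fun i : Fin d => low o ≤ i)
  have hnn : ∀ L, 0 ≤ ∑ i ∈ F, Real.exp (L * theta V o n b i) :=
    fun L => Finset.sum_nonneg fun i _ => (Real.exp_pos _).le
  cases o with
  | none =>
    filter_upwards [eventually_ge_atTop (2 * |A| + 2)] with L hL
    have := lin_lt_exp (abs_nonneg A) hL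
    have h1 : L * A ≤ |A| * L := by nlinarith [le_abs_self A, abs_nonneg A]
    simp only [coef, expo, one_mul, mul_one]
    linarith [hnn L, abs_nonneg A]
  | some m =>
    simp only [coef, expo]
    have hpos : 0 < Rt V d * e0 V m := by
      have := five_le_Rt V d
      have := two_le_e0 V m
      positivity
    have hn0 : ∀ i, n i ≤ 0 := fun i => PValid.nonpos hv rfl i.2
    rcases (show A ≤ 0 from Finset.sum_nonpos fun i _ =>
      mul_nonpos_of_nonpos_of_nonneg (hn0 i) (hx _).le).eq_or_lt with hz | hneg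
    · filter_upwards [eventually_ge_atTop 0] with L hL
      have hzero : n m = 0 := by
        have := (Finset.sum_eq_zero_iff_of_nonpos fun i _ =>
          mul_nonpos_of_nonpos_of_nonneg (hn0 i) (hx _).le).mp hz m (mem_univ m)
        simpa [(hx (σ m)).ne'] using this
      obtain ⟨-, -, hfree⟩ := (hv m m.2).2 le_rfl
      obtain ⟨hE, hw, -⟩ := scales V (some m) b m
      have hb : b m = true := by
        cases hbm : b m with
        | true => rfl
        | false =>
          have := (hfree hbm).2 0 (zero_mem_Lev V m n)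
          rw [hzero, sub_zero, abs_zero] at this
          linarith
      have hth : -(Rt V d * e0 V m) ≤ theta V (some m) n b m := by
        have := win_low_le (V := V) (o := some m) b (j := m) le_rfl
        simp only [start] at this
        simp [theta, thv, hb, hzero]
        exact this
      have hsum : Real.exp (L * -(Rt V d * e0 V m)) ≤
          ∑ i ∈ F, Real.exp (L * theta V (some m) n b i) :=
        le_trans (Real.exp_le_exp.mpr (mul_le_mul_of_nonneg_left hth hL))
          (Finset.single_le_sum (f := fun i => Real.exp (L * theta V (some m) n b i))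
            (fun i _ => (Real.exp_pos _).le) (by simp [F, low]))
      rw [hz]
      linarith [Real.exp_pos (L * -(Rt V d * e0 V m))]
    · filter_upwards [eventually_ge_atTop (1 / -A), eventually_ge_atTop 0] with L hL hL0
      rw [div_le_iff₀ (by linarith)] at hL
      have : Real.exp (L * -(Rt V d * e0 V m)) ≤ 1 := Real.exp_le_one_iff.mpr (by nlinarith)
      linarith [hnn L]

/-- Permanence with existence and uniqueness. -/
theorem permanence (rxn : Finset (Reaction d)) (hwr : WeaklyReversible rxn) (k : Reaction d → ℝ)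
    (hk : ∀ r ∈ rxn, 0 < k r) (c : Fin d → ℝ) :
    ∃ K, IsCompact K ∧ K ⊆ posClass rxn c ∧ ∀ x₀ ∈ posClass rxn c, ∃ x : ℝ → Fin d → ℝ,
      x 0 = x₀ ∧
      (∀ t, 0 ≤ t → x t ∈ posClass rxn c ∧
        HasDerivWithinAt x (massAction rxn k (x t)) (Set.Ici 0) t) ∧
      (∀ T : ℝ, ∀ y : ℝ → Fin d → ℝ, y 0 = x₀ →
        (∀ t ∈ Set.Icc 0 T, HasDerivWithinAt y (massAction rxn k (y t)) (Set.Icc 0 T) t) →
        Set.EqOn y x (Set.Icc 0 T)) ∧
      ∃ T : ℝ, ∀ t, T ≤ t → x t ∈ K := by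
  set V := vecs rxn
  set S := stoich rxn
  set f := massAction rxn k
  obtain ⟨R, hR0, hR⟩ := exists_valid_bound V
  have hkin : ∀ᶠ L in atTop, ∀ r ∈ rxn, ∀ b ∈ rxn, ((rxn.card : ℝ) + 1) * k r ≤ k b * Real.exp L := by
    refine (eventually_all_finset _).mpr fun r _ => (eventually_all_finset _).mpr fun b hb => ?_
    exact (Real.tendsto_exp_atTop.const_mul_atTop (hk b hb)).eventually_ge_atTop _
  have hc : ∀ᶠ L in atTop, ∀ a : Idx V, L * lin V a c - cst V a L ≠ 0 := by
    refine eventually_all.mpr fun a => ?_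
    simp only [cst, ← sub_sub]
    exact eventually_ne_zero _ _ _ _ _ (coef_ne _)
  obtain ⟨L₀, hL₀⟩ := eventually_atTop.mp (hkin.and (hc.and ((eventually_ge_atTop
    (2 * ((botB V : ℝ) * d * 2 + 4 * R * d + 2 * d) + 2)).and (eventually_gt_atTop (0 : ℝ)))))
  have hLpos : 0 < L₀ := (hL₀ L₀ le_rfl).2.2.2
  set lo : ℝ → ℝ := fun L => Real.exp (-L * botB V)
  set hi : ℝ → ℝ := fun L => Real.exp (L * topH V)
  have hd0 := (Nat.cast_nonneg d : (0:ℝ) ≤ d)
  have hbB : 0 ≤ (botB V : ℝ) * d := by positivity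
  have hRd : 0 ≤ R * d := by positivity
  have hlo : ∀ L, L₀ ≤ L → 0 < lo L := fun L _ => Real.exp_pos _
  have hlom : Antitone lo := fun a b hab => Real.exp_le_exp.mpr (by
    nlinarith [(botB V).cast_nonneg (α := ℝ)])
  have him : MonotoneOn hi (Set.Ici L₀) := fun a _ b _ hab => Real.exp_le_exp.mpr (by
    nlinarith [(topH V).cast_nonneg (α := ℝ)])
  have hbox : ∀ L, L₀ ≤ L → ∀ x ∈ Reg S c (lin V) (cst V) L, ∀ i, x i ∈ Set.Icc (lo L) (hi L) := by
    intro L hL x hx i
    obtain ⟨-, hx⟩ := (Reg_eq_Om V S c L).mp hx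
    have hbig := (hL₀ L hL).2.2.1
    exact ⟨Om_lower (by linarith) hx i, Om_upper (by linarith) hx i⟩
  have hstrict : ∀ L, L₀ ≤ L → ∀ x ∈ Reg S c (lin V) (cst V) L, ∀ a,
      L * lin V a x - cst V a L = 0 → L * lin V a (f x) < 0 := by
    intro L hL x hx a ha
    obtain ⟨hxS, hxO⟩ := (Reg_eq_Om V S c L).mp hx
    obtain ⟨hkinL, hcL, hbig, hpos⟩ := hL₀ L hL
    set p : Fin d → ℝ := fun q => a.1.2.1 (a.1.2.2.2.symm q)
    have hdir : ∀ r ∈ rxn, ∀ b ∈ rxn, (∑ i, p i * (r.1 i : ℝ)) < ∑ i, p i * (b.1 i : ℝ) →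
        (∑ i, (r.1 i : ℝ) * Real.log (x i)) + L < ∑ i, (b.1 i : ℝ) * Real.log (x i) := by
      intro r hr b hb hlt
      have := direction hR0 hR hbig (vecs_perm rxn) hxO a.2
        ((con_eq V a L x).trans ha) (vecs_mem hr hb) (by
          simp only [Int.cast_sub, Int.cast_natCast, sub_mul, Finset.sum_sub_distrib]
          simp only [p] at hlt
          simp_rw [mul_comm ((b.1 _ : ℕ) : ℝ), mul_comm ((r.1 _ : ℕ) : ℝ)]
          linarith)
      simp only [Int.cast_sub, Int.cast_natCast, sub_mul, Finset.sum_sub_distrib] at this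
      linarith
    rcases flux hwr hk (x := x) (p := p) hxO.1 hkinL hdir with h | h
    · rw [lin_apply']
      exact mul_neg_of_pos_of_neg hpos h
    · exfalso
      have hker : S ≤ LinearMap.ker (lin V a).toLinearMap := by
        refine Submodule.span_le.mpr ?_
        rintro _ ⟨r, hr, rfl⟩
        simp only [SetLike.mem_coe, LinearMap.mem_ker, ContinuousLinearMap.coe_coe, lin_apply',
          mul_sub, Finset.sum_sub_distrib]
        linarith [h r hr]
      have hxc : lin V a (x - c) = 0 := hker hxS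
      rw [map_sub, sub_eq_zero] at hxc
      exact hcL a (by rw [← hxc]; exact ha)
  have hcont : ∀ a : Idx V, Continuous (cst V a) := fun a => by
    unfold cst
    fun_prop
  refine ⟨Reg S c (lin V) (cst V) L₀, Reg_compact hlo hbox le_rfl, fun x hx => ⟨hx.2.1, hx.1⟩,
    fun x₀ hx₀ => ?_⟩
  obtain ⟨L₁, hL₁, hmem⟩ : ∃ L₁, L₀ ≤ L₁ ∧ x₀ ∈ Reg S c (lin V) (cst V) L₁ := by
    obtain ⟨L₁, h1, h2⟩ := ((eventually_ge_atTop L₀).and
      (eventually_all.mpr (exhaust V hx₀.1))).exists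
    exact ⟨L₁, h1, hx₀.2, hx₀.1, h2⟩
  obtain ⟨x, hx0, hx⟩ := exists_solution (massAction_contDiff rxn k) (massAction_mem rxn k)
    hlo hbox hstrict hL₁ hmem
  refine ⟨x, hx0, fun t ht => ⟨⟨(hx t ht).1.2.1, (hx t ht).1.1⟩, (hx t ht).2.hasDerivWithinAt⟩,
    fun T y hy0 hy => unique_solution (massAction_contDiff rxn k) (hy0.trans hx0.symm)
      (fun t ht => (hx t ht.1).2.hasDerivWithinAt) hy, ?_⟩
  exact eventually_atTop.mp
    (absorb (massAction_contDiff rxn k) hcont hlo hlom him hbox hstrict hLpos hL₁ hx)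

end

end Vale.Agent.P072
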